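import Vale.Agent.P167.QE.On
import Vale.Agent.P167.H718.Rc2

/-!
# P167, general `q`, Stage II: the event `L_z` (the interface passes the point `z` on the free side)
and the statements of the block S2-LZ
-/

set_option autoImplicit false

open MeasureTheory Filter Topology Set

namespace Vale.Agent.P167.H397.Q

open Vale.Agent.P167.FK
open Vale.Agent.P145.FB (PStep)
open Vale.Agent.P167.E6 Vale.Agent.P167.E2
open Vale.Agent.P153.R2.Final (dom circ toC IsUniformizer)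
open Vale.Agent.P167.QE (Cls CurveLimitOn QuestionOn wq)

/-! ### The event -/

/-- The squares of the open edges of the cluster of the primal site `w`. -/
def blk (ω : Cfg) (w : ℤ × ℤ) : Set (ℤ × ℤ) := {v | ω v = true ∧ PC ω w (pa v)}

/-- **The event `L`**: the cluster of the primal site `w` separates the dual site `s` from infinity:
only finitely many dual sites can be reached from `s` without crossing an open edge of the cluster
of `w`. (The event is increasing.) -/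
def LZ (w s : ℤ × ℤ) : Set Cfg :=
  {ω | {t : ℤ × ℤ | Relation.ReflTransGen (PStep (blk ω w)ᶜ) s t}.Finite}

/-- The probability of `L` for the face `f` in the polygon `p` (wired cluster: that of `p (-1)`). -/
noncomputable def PL (q : ℝ) {n : ℕ} (p : ZMod n → ℤ × ℤ) (k : ℕ) (S : Finset (ℤ × ℤ))
    (f : ℤ × ℤ) : ℝ :=
  Final.mean q p k S fun A =>
    (LZ (H192.ro (p (-1))) (H192.rf f)).indicator 1 (H192.cfg (wiredOpen p k A))

/-! ### Increments of the logarithm -/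

/-- `d` is the increment of a continuous logarithm of `c - z` along the path `c` (which avoids `z`);
its imaginary part is the increment of the argument. -/
def IsInc (c : C(unitInterval, ℂ)) (z d : ℂ) : Prop :=
  ∃ θ : C(unitInterval, ℂ), (∀ t, Complex.exp (θ t) = c t - z) ∧ θ 1 - θ 0 = d

/-- **(1b)** (law-free): the interface `γ` followed by the wired arc `w` (from `b` to `a`) winds once
around `z` if the event `L` holds for a face near `z`, and it does not wind around `z` otherwise. -/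
def S_ind : Prop := ∀ (n : ℕ) (p : ZMod n → ℤ × ℤ) (k : ℕ) (S : Finset (ℤ × ℤ)) (δ ρ : ℝ)
  (A : Finset (Sym2 (ℤ × ℤ))) (γ w : C(unitInterval, ℂ)) (z a b : ℂ) (f : ℤ × ℤ),
  0 < δ → 100 * δ ≤ ρ → 0 < k → k < n → IsPolygon p → Encloses p S → A ⊆ edges S →
  IsInterface p k δ A γ →
  (∀ t : unitInterval, w t = poly (fun j => (δ : ℂ) * pt (p ((k + j : ℕ) : ZMod n))) (n - 1 - k) t) →
  dist ((δ : ℂ) * pt f) z ≤ ρ → (∀ t, 2 * ρ ≤ dist (γ t) z) → (∀ t, 2 * ρ ≤ dist (w t) z) →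
  IsInc γ z a → IsInc w z b →
  (H192.cfg (wiredOpen p k A) ∈ LZ (H192.ro (p (-1))) (H192.rf f) ∧
    |(a + b).im - 2 * Real.pi| ≤ 1) ∨
  (H192.cfg (wiredOpen p k A) ∉ LZ (H192.ro (p (-1))) (H192.rf f) ∧ |(a + b).im| ≤ 1)

/-- (1c) in the format of `Approx`: the interface does not come near a fixed interior point. -/
def S_near (q : ℝ) : Prop := ∀ (Φ : (ℝ × ℝ) ≃ₜ (ℝ × ℝ)) (δ : ℕ → ℝ) (N k : ℕ → ℕ)
  (p : ∀ n, ZMod (N n) → ℤ × ℤ) (S : ℕ → Finset (ℤ × ℤ)), Approx Φ δ N k p S →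
  ∀ z ∈ toC '' dom Φ, ∀ ε : ℝ, 0 < ε → ∃ ρ : ℝ, 0 < ρ ∧
    ∀ c : ∀ n, Finset (Sym2 (ℤ × ℤ)) → C(unitInterval, ℂ),
      (∀ n, ∀ A ⊆ edges (S n), IsInterface (p n) (k n) (δ n) A (c n A)) →
      ∀ᶠ n in atTop, Final.mean q (p n) (k n) (S n)
        ({A | ∃ t, dist (c n A t) z < ρ}.indicator 1) ≤ ε

/-- (1f), free side: near an interior point of the free arc the probability of `L` is small. -/
def S_free (q : ℝ) : Prop := ∀ (Φ : (ℝ × ℝ) ≃ₜ (ℝ × ℝ)) (δ : ℕ → ℝ) (N k : ℕ → ℕ)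
  (p : ∀ n, ZMod (N n) → ℤ × ℤ) (S : ℕ → Finset (ℤ × ℤ)), Approx Φ δ N k p S →
  ∀ t ∈ Ioo 0 Real.pi, ∀ ε : ℝ, 0 < ε → ∃ ρ : ℝ, 0 < ρ ∧ ∀ f : ℕ → ℤ × ℤ,
    (∀ᶠ n in atTop, dist ((δ n : ℂ) * pt (f n)) (toC (Φ (circ t))) < ρ) →
    ∀ᶠ n in atTop, PL q (p n) (k n) (S n) (f n) ≤ ε

/-- (1f), wired side: near an interior point of the wired arc the probability of `L` is close to
`1`. -/
def S_wired (q : ℝ) : Prop := ∀ (Φ : (ℝ × ℝ) ≃ₜ (ℝ × ℝ)) (δ : ℕ → ℝ) (N k : ℕ → ℕ)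
  (p : ∀ n, ZMod (N n) → ℤ × ℤ) (S : ℕ → Finset (ℤ × ℤ)), Approx Φ δ N k p S →
  ∀ t ∈ Ioo Real.pi (2 * Real.pi), ∀ ε : ℝ, 0 < ε → ∃ ρ : ℝ, 0 < ρ ∧ ∀ f : ℕ → ℤ × ℤ,
    (∀ᶠ n in atTop, dist ((δ n : ℂ) * pt (f n)) (toC (Φ (circ t))) < ρ ∧ f n ∈ S n) →
    ∀ᶠ n in atTop, 1 - ε ≤ PL q (p n) (k n) (S n) (f n)

/-- Comparison: the probability of `L` increases with the wired arc (the polygon is numbered from the
new starting point). -/
def S_rot (q : ℝ) : Prop := ∀ (n : ℕ) (p : ZMod n → ℤ × ℤ) (k j : ℕ) (S : Finset (ℤ × ℤ))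
  (f : ℤ × ℤ), IsPolygon p → Encloses p S → j < k → k < n → f ∈ S →
  PL q p k S f ≤ PL q (fun i => p (i + (j : ZMod n))) (k - j) S f

/-! ### The output -/

/-- The properties of the limit of the probabilities of `L`. -/
structure PasF (h : ℂ → ℝ) : Prop where
  cont : ContinuousOn h {z | 0 < z.im}
  nonneg : ∀ z, 0 < z.im → 0 ≤ h z
  le_one : ∀ z, 0 < z.im → h z ≤ 1
  scale : ∀ (r : ℝ) (z : ℂ), 0 < r → 0 < z.im → h (r * z) = h z
  nconst : ∃ z z' : ℂ, 0 < z.im ∧ 0 < z'.im ∧ h z ≠ h z'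

/-- The probabilities of `L` converge along all approximations in the class `K`, locally uniformly
in the point. -/
def PasLim (K : Cls) (q : ℝ) (h : ℂ → ℝ) : Prop :=
  ∀ (Φ : (ℝ × ℝ) ≃ₜ (ℝ × ℝ)) (ψ : ℂ → ℂ) (δ : ℕ → ℝ) (N k : ℕ → ℕ)
    (p : ∀ n, ZMod (N n) → ℤ × ℤ) (S : ℕ → Finset (ℤ × ℤ)), IsUniformizer Φ ψ →
    Approx Φ δ N k p S → K Φ δ N k p S → ∀ z : ℂ, 0 < z.im → ∀ f : ℕ → ℤ × ℤ,
    Tendsto (fun n => (δ n : ℂ) * pt (f n)) atTop (𝓝 (ψ z)) →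
    Tendsto (fun n => PL q (p n) (k n) (S n) (f n)) atTop (𝓝 (h z))

/-- **The output of the block S2-LZ.** -/
def S_pas (K : Cls) (q : ℝ) : Prop := CurveLimitOn K (Final.kappa q) (wq q) →
  ∃ h : ℂ → ℝ, PasF h ∧ PasLim K q h

end Vale.Agent.P167.H397.Q
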