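import Vale.Agent.P167.H397.Q.S2Defs

/-!
# P167, general `q`, Stage II: moving the starting point (statements)
-/

set_option autoImplicit false

open MeasureTheory Filter Topology Set

namespace Vale.Agent.P167.H397.Q

open Vale.Agent.P167.E6 Vale.Agent.P167.E2
open Vale.Agent.P153.R2.Final (dom circ toC IsUniformizer)
open Vale.Agent.P167.QE (Cls)

/-- Every approximation is, with another numbering of the polygons, an approximation of the same
domain with the same `b` and another starting point on the free arc. -/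
def S_rotA : Prop := ∀ (Φ : (ℝ × ℝ) ≃ₜ (ℝ × ℝ)) (δ : ℕ → ℝ) (N k : ℕ → ℕ)
  (p : ∀ n, ZMod (N n) → ℤ × ℤ) (S : ℕ → Finset (ℤ × ℤ)), Approx Φ δ N k p S →
  ∃ (Φ' : (ℝ × ℝ) ≃ₜ (ℝ × ℝ)) (j : ℕ → ℕ), (∀ n, j n < k n) ∧
    Approx Φ' δ N (fun n => k n - j n) (fun n i => p n (i + ((j n : ℕ) : ZMod (N n)))) S ∧
    toC '' dom Φ' = toC '' dom Φ ∧ Φ' (circ Real.pi) = Φ (circ Real.pi) ∧
    Φ' (circ 0) = Φ (circ (Real.pi / 2))

/-- The class `K` contains two approximations of one domain with the same `b`, by the same polygons,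
with two starting points; the wired arc of the second one is larger. -/
def Two (K : Cls) : Prop := ∃ (Φ Φ' : (ℝ × ℝ) ≃ₜ (ℝ × ℝ)) (δ : ℕ → ℝ) (N k j : ℕ → ℕ)
  (p : ∀ n, ZMod (N n) → ℤ × ℤ) (S : ℕ → Finset (ℤ × ℤ)), (∀ n, j n < k n) ∧
    Approx Φ δ N k p S ∧ K Φ δ N k p S ∧
    Approx Φ' δ N (fun n => k n - j n) (fun n i => p n (i + ((j n : ℕ) : ZMod (N n)))) S ∧
    K Φ' δ N (fun n => k n - j n) (fun n i => p n (i + ((j n : ℕ) : ZMod (N n)))) S ∧
    toC '' dom Φ' = toC '' dom Φ ∧ Φ' (circ Real.pi) = Φ (circ Real.pi) ∧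
    Φ' (circ 0) ≠ Φ (circ 0)

/-- The limit function is monotone in the argument (in one of the two directions). -/
def Mono (h : ℂ → ℝ) : Prop :=
  (∀ z z' : ℂ, 0 < z.im → 0 < z'.im → z.arg ≤ z'.arg → h z ≤ h z') ∨
  (∀ z z' : ℂ, 0 < z.im → 0 < z'.im → z.arg ≤ z'.arg → h z' ≤ h z)

end Vale.Agent.P167.H397.Q
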