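import Vale.Agent.P167.H397.Q.Tra
import Vale.Agent.P167.QC.S2Geo

/-!
# P167, general `q`, Stage II: the limit does not depend on the domain
-/

set_option autoImplicit false
set_option linter.unusedVariables false
set_option linter.unusedSectionVars false

open MeasureTheory Filter Topology Set

namespace Vale.Agent.P167.H397.Q

open Vale.Agent.P167.E6 Vale.Agent.P167.E2
open Vale.Agent.P153.R2.Final (dom circ toC IsUniformizer)
open Vale.Agent.P153.R2.DET (Uni HC)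
open Vale.Agent.P167.SLE (uni_of_uniformizer exists_transfer bq)
open P153.TOP

/-! ### The increment as a function of the point -/

theorem continuousAt_incv_pt {c : C(unitInterval, ℂ)} {z : ℂ} (h : 0 < md c z) :
    ContinuousAt (fun z' => incv c z') z := by
  have hne := ne_of_md h
  have hd := isInc_incv hne
  have h1 : ∀ᶠ z' in 𝓝 z, incv c z' = incv c z + (Complex.log ((c 1 - z') / (c 1 - z)) -
      Complex.log ((c 0 - z') / (c 0 - z))) := by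
    filter_upwards [Metric.ball_mem_nhds z h] with z' hz'
    refine (hd.near (c' := c) (z' := z') fun t => ?_).incv
    have h3 := md_le c z t
    rw [Metric.mem_ball, dist_eq_norm] at hz'
    rw [dist_eq_norm] at h3
    have e : (c t - z') - (c t - z) = -(z' - z) := by ring
    rw [e, norm_neg]
    linarith
  have key : ∀ t : unitInterval, ContinuousAt (fun z' : ℂ =>
      Complex.log ((c t - z') / (c t - z))) z := by
    intro t
    refine ContinuousAt.clog ?_ ?_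
    · exact ((continuous_const.sub continuous_id).div_const _).continuousAt
    · rw [div_self (sub_ne_zero.2 (hne t))]
      exact Complex.one_mem_slitPlane
  refine ContinuousAt.congr (f := fun z' : ℂ => incv c z +
    (Complex.log ((c 1 - z') / (c 1 - z)) - Complex.log ((c 0 - z') / (c 0 - z)))) ?_ ?_
  · exact continuousAt_const.add ((key 1).sub (key 0))
  · filter_upwards [h1] with c' hc'
    exact hc'.symm

/-- Two curves with the same end points: the difference of the increments is an integer multiple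
of `2 π`. -/
theorem incv_sub_int {c c' : C(unitInterval, ℂ)} {z : ℂ} (h : 0 < md c z) (h' : 0 < md c' z)
    (h0 : c 0 = c' 0) (h1 : c 1 = c' 1) :
    ∃ m : ℤ, (incv c z).im - (incv c' z).im = m * (2 * Real.pi) := by
  obtain ⟨θ, hθ1, hθ2⟩ := isInc_incv (ne_of_md h)
  obtain ⟨η, hη1, hη2⟩ := isInc_incv (ne_of_md h')
  have ha : c 0 - z ≠ 0 := sub_ne_zero.2 (ne_of_md h 0)
  have hb : c 1 - z ≠ 0 := sub_ne_zero.2 (ne_of_md h 1)
  have hx : Complex.exp (incv c z - incv c' z) = 1 := by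
    rw [← hθ2, ← hη2, Complex.exp_sub, Complex.exp_sub, Complex.exp_sub, hθ1, hθ1, hη1, hη1,
      ← h0, ← h1]
    field_simp
  obtain ⟨m, hm⟩ := Complex.exp_eq_one_iff.1 hx
  refine ⟨m, ?_⟩
  have h2 := congrArg Complex.im hm
  rw [Complex.sub_im] at h2
  rw [h2]
  simp

section

variable {Φ Φ' : (ℝ × ℝ) ≃ₜ (ℝ × ℝ)} {ψ ψ' : ℂ → ℂ} {f : C(ℂ, ℂ)}

/-- `f` maps the closed domain of `Φ` to that of `Φ'`. -/
structure Trf (Φ Φ' : (ℝ × ℝ) ≃ₜ (ℝ × ℝ)) (ψ ψ' : ℂ → ℂ) (f : C(ℂ, ℂ)) : Prop where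
  u : IsUniformizer Φ ψ
  u' : IsUniformizer Φ' ψ'
  fb : f (bq Φ) = bq Φ'
  fx : ∀ x ∈ HC, f (ψ x) = ψ' x
  L : ∀ w : ℂ, 0 < w.im → ∃ Λ : ℂ → ℂ, ContinuousOn Λ (cl Φ) ∧
    ∀ y ∈ cl Φ, y ≠ ψ w → Complex.exp (Λ y) * (y - ψ w) = f y - ψ' w

theorem exists_trf (hψ : IsUniformizer Φ ψ) (hψ' : IsUniformizer Φ' ψ') :
    ∃ f : C(ℂ, ℂ), Trf Φ Φ' ψ ψ' f := by
  obtain ⟨f, h1, h2, h3⟩ := exists_trans hψ hψ'
  exact ⟨f, hψ, hψ', h1, h2, h3⟩

theorem bq_eq (Φ : (ℝ × ℝ) ≃ₜ (ℝ × ℝ)) : bq Φ = toC (Φ (circ Real.pi)) := rfl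

theorem Trf.fa (T : Trf Φ Φ' ψ ψ' f) : f (toC (Φ (circ 0))) = toC (Φ' (circ 0)) := by
  have h0 : (0 : ℂ) ∈ HC := le_refl (α := ℝ) 0
  rw [← T.u.2.2.2.2.1, T.fx 0 h0, T.u'.2.2.2.2.1]

theorem arcW_mem (Φ : (ℝ × ℝ) ≃ₜ (ℝ × ℝ)) (t : unitInterval) : arcW Φ t ∈ cl Φ :=
  circ_mem_cl Φ _

theorem Trf.md_pos (T : Trf Φ Φ' ψ ψ' f) {w : ℂ} (hw : 0 < w.im) {c : C(unitInterval, ℂ)}
    (hc : ∀ t, c t ∈ cl Φ) (h : 0 < md c (ψ w)) : 0 < md (f.comp c) (ψ' w) := by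
  obtain ⟨Λ, -, hΛ⟩ := T.L w hw
  refine lt_md.2 fun t => dist_pos.2 fun h1 => ?_
  have h2 := hΛ (c t) (hc t) (ne_of_md h t)
  rw [ContinuousMap.comp_apply] at h1
  rw [h1, sub_self] at h2
  rcases mul_eq_zero.1 h2 with h3 | h3
  · exact Complex.exp_ne_zero _ h3
  · exact ne_of_md h t (sub_eq_zero.1 h3)

theorem Trf.md_arc (T : Trf Φ Φ' ψ ψ' f) {w : ℂ} (hw : 0 < w.im) :
    0 < md (f.comp (arcW Φ)) (ψ' w) :=
  T.md_pos hw (arcW_mem Φ) (md_arcW_pos (psi_mem T.u hw))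

/-- The difference of the increments along the wired arcs. -/
noncomputable def dM (Φ Φ' : (ℝ × ℝ) ≃ₜ (ℝ × ℝ)) (ψ' : ℂ → ℂ) (f : C(ℂ, ℂ)) (w : ℂ) : ℝ :=
  (incv (arcW Φ') (ψ' w)).im - (incv (f.comp (arcW Φ)) (ψ' w)).im

theorem Trf.dM_int (T : Trf Φ Φ' ψ ψ' f) {w : ℂ} (hw : 0 < w.im) :
    ∃ m : ℤ, dM Φ Φ' ψ' f w = m * (2 * Real.pi) := by
  refine incv_sub_int (md_arcW_pos (psi_mem T.u' hw)) (T.md_arc hw) ?_ ?_
  · rw [ContinuousMap.comp_apply, arcW_zero, arcW_zero, ← bq_eq, ← bq_eq, T.fb]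
  · rw [ContinuousMap.comp_apply, arcW_one, arcW_one, T.fa]

/-- The difference does not depend on the point. -/
theorem Trf.dM_const (T : Trf Φ Φ' ψ ψ' f) : ∃ m : ℤ, ∀ w : ℂ, 0 < w.im →
    dM Φ Φ' ψ' f w = m * (2 * Real.pi) := by
  have hpi := Real.pi_pos
  have hI : (0 : ℝ) < (Complex.I).im := by rw [Complex.I_im]; exact zero_lt_one
  obtain ⟨m, hm⟩ := T.dM_int hI
  refine ⟨m, fun w hw => ?_⟩
  have hpre : IsPreconnected {w : ℂ | 0 < w.im} :=
    (convex_halfSpace_im_gt 0).isPreconnected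
  have hcont : ContinuousOn (fun w => dM Φ Φ' ψ' f w / (2 * Real.pi)) {w : ℂ | 0 < w.im} := by
    intro w hw
    have h1 : ContinuousAt ψ' w := (diffAt T.u' hw).continuousAt
    have h2 : ContinuousAt (fun w => incv (arcW Φ') (ψ' w)) w :=
      ContinuousAt.comp (f := ψ') (continuousAt_incv_pt (md_arcW_pos (psi_mem T.u' hw))) h1
    have h3 : ContinuousAt (fun w => incv (f.comp (arcW Φ)) (ψ' w)) w :=
      ContinuousAt.comp (f := ψ') (continuousAt_incv_pt (T.md_arc hw)) h1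
    exact (((Complex.continuous_im.continuousAt.comp h2).sub
      (Complex.continuous_im.continuousAt.comp h3)).div_const _).continuousWithinAt
  have h := int_const hpre hcont (fun w hw => by
    obtain ⟨j, hj⟩ := T.dM_int hw
    exact ⟨j, by rw [hj]; field_simp⟩) hw hI
  beta_reduce at h
  rw [hm] at h
  field_simp at h
  linarith

/-- **The total increment of the transferred curve.** -/
theorem Trf.tot (T : Trf Φ Φ' ψ ψ' f) {w : ℂ} (hw : 0 < w.im) {c : C(unitInterval, ℂ)}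
    (hc : ∀ t, c t ∈ cl Φ) (h : 0 < md c (ψ w)) (h0 : c 0 = toC (Φ (circ 0)))
    (h1 : c 1 = bq Φ) : tot Φ' (ψ' w) (f.comp c) = tot Φ (ψ w) c + dM Φ Φ' ψ' f w := by
  obtain ⟨Λ, hΛ, hΛ'⟩ := T.L w hw
  have h2 := (isInc_incv (ne_of_md h)).transfer (f := f) (c' := f.comp c) (z' := ψ' w) hc hΛ hΛ'
    (fun t => rfl)
  have h3 := (isInc_incv (arcW_ne (psi_mem T.u hw))).transfer (f := f)
    (c' := f.comp (arcW Φ)) (z' := ψ' w) (arcW_mem Φ) hΛ hΛ' (fun t => rfl)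
  unfold Q.tot dM
  rw [h2.incv, h3.incv, h0, h1, arcW_zero, arcW_one, ← bq_eq]
  simp only [Complex.add_im, Complex.sub_im]
  ring

end

/-! ### Faces near a point -/

theorem tendsto_face {δ : ℕ → ℝ} (hδ : ∀ n, 0 < δ n) (h0 : Tendsto δ atTop (𝓝 0)) (z : ℂ) :
    Tendsto (fun n => (δ n : ℂ) * pt (⌊z.re / δ n⌋, ⌊z.im / δ n⌋)) atTop (𝓝 z) := by
  rw [tendsto_iff_norm_sub_tendsto_zero]
  refine squeeze_zero (fun _ => norm_nonneg _) (g := fun n => 2 * δ n) (fun n => ?_)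
    (by simpa using h0.const_mul 2)
  have hδ := hδ n
  have e1 := Int.floor_le (z.re / δ n)
  have e2 := Int.lt_floor_add_one (z.re / δ n)
  have e3 := Int.floor_le (z.im / δ n)
  have e4 := Int.lt_floor_add_one (z.im / δ n)
  rw [le_div_iff₀ hδ] at e1 e3
  rw [div_lt_iff₀ hδ] at e2 e4
  refine (Complex.norm_le_abs_re_add_abs_im _).trans ?_
  have r1 : ((δ n : ℂ) * pt (⌊z.re / δ n⌋, ⌊z.im / δ n⌋) - z).re =
      δ n * ⌊z.re / δ n⌋ - z.re := by
    simp [pt, Complex.mul_re]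
  have r2 : ((δ n : ℂ) * pt (⌊z.re / δ n⌋, ⌊z.im / δ n⌋) - z).im =
      δ n * ⌊z.im / δ n⌋ - z.im := by
    simp [pt, Complex.mul_im]
  rw [r1, r2]
  have r3 : |δ n * ⌊z.re / δ n⌋ - z.re| ≤ δ n := by
    rw [abs_le]
    constructor <;> nlinarith
  have r4 : |δ n * ⌊z.im / δ n⌋ - z.im| ≤ δ n := by
    rw [abs_le]
    constructor <;> nlinarith
  linarith

/-- The faces near an interior point are enclosed. -/
theorem faces_mem {Φ : (ℝ × ℝ) ≃ₜ (ℝ × ℝ)} {δ : ℕ → ℝ} {N k : ℕ → ℕ}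
    {p : ∀ n, ZMod (N n) → ℤ × ℤ} {S : ℕ → Finset (ℤ × ℤ)} (hA : Approx Φ δ N k p S) {z : ℂ}
    (hz : z ∈ toC '' dom Φ) {f : ℕ → ℤ × ℤ}
    (hf : Tendsto (fun n => (δ n : ℂ) * pt (f n)) atTop (𝓝 z)) : ∀ᶠ n in atTop, f n ∈ S n := by
  obtain ⟨r, hr, h1⟩ := QC.exists_ball hA hz
  filter_upwards [h1, hf.eventually (Metric.ball_mem_nhds z (show 0 < r / 2 by positivity)),
    hA.2.1.eventually (gt_mem_nhds (show 0 < r / 2 by positivity))] with n h2 h3 h4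
  have hδ := (hA.1 n).1
  set u : ℂ := (δ n : ℂ) * pt (f n) + (δ n / 2 : ℝ) * (1 + Complex.I) with hu
  have h5 : u ∈ region (δ n) (S n) := by
    refine h2 ?_
    rw [Metric.mem_closedBall]
    have h6 : dist u ((δ n : ℂ) * pt (f n)) ≤ δ n := by
      rw [dist_eq_norm, hu, add_sub_cancel_left, norm_mul, Complex.norm_real,
        Real.norm_of_nonneg (by positivity)]
      have h7 : ‖(1 : ℂ) + Complex.I‖ ≤ 2 := by
        refine (norm_add_le _ _).trans ?_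
        rw [norm_one, Complex.norm_I]
        norm_num
      nlinarith
    have h7 := dist_triangle u ((δ n : ℂ) * pt (f n)) z
    have h8 : dist ((δ n : ℂ) * pt (f n)) z < r / 2 := h3
    have h9 : δ n < r / 2 := h4
    linarith
  obtain ⟨g, hg, g1, g2, g3, g4⟩ := h5
  have e1 : u.re = δ n * (f n).1 + δ n / 2 := by
    rw [hu]
    simp [pt, Complex.mul_re]
  have e2 : u.im = δ n * (f n).2 + δ n / 2 := by
    rw [hu]
    simp [pt, Complex.mul_im]
  have : g = f n := QC.face_of_pt hδ g1 g2 g3 g4 (by rw [e1]; linarith) (by rw [e1]; linarith)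
    (by rw [e2]; linarith) (by rw [e2]; linarith)
  rw [← this]
  exact hg

/-- A boundary point is a limit of interior points. -/
theorem exists_near {Φ : (ℝ × ℝ) ≃ₜ (ℝ × ℝ)} {ψ : ℂ → ℂ} (hψ : IsUniformizer Φ ψ) (t : ℝ) {ρ : ℝ}
    (hρ : 0 < ρ) : ∃ w : ℂ, 0 < w.im ∧ dist (ψ w) (toC (Φ (circ t))) < ρ := by
  have h1 : Tendsto (fun n : ℕ => ((1 - 1 / ((n : ℝ) + 1)) * Real.cos t,
      (1 - 1 / ((n : ℝ) + 1)) * Real.sin t)) atTop (𝓝 (circ t)) := by
    have h2 : Tendsto (fun n : ℕ => (1 - 1 / ((n : ℝ) + 1))) atTop (𝓝 (1 - 0)) :=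
      tendsto_const_nhds.sub tendsto_one_div_add_atTop_nhds_zero_nat
    rw [sub_zero] at h2
    have h3 := (h2.mul_const (Real.cos t)).prodMk_nhds (h2.mul_const (Real.sin t))
    simpa [circ] using h3
  have h2 : Tendsto (fun n : ℕ => toC (Φ ((1 - 1 / ((n : ℝ) + 1)) * Real.cos t,
      (1 - 1 / ((n : ℝ) + 1)) * Real.sin t))) atTop (𝓝 (toC (Φ (circ t)))) :=
    ((continuous_toC.comp Φ.continuous).tendsto _).comp h1
  obtain ⟨n, hn⟩ := (h2.eventually (Metric.ball_mem_nhds _ hρ)).exists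
  have h3 : toC (Φ ((1 - 1 / ((n : ℝ) + 1)) * Real.cos t,
      (1 - 1 / ((n : ℝ) + 1)) * Real.sin t)) ∈ ψ '' {z | 0 < z.im} := by
    rw [hψ.2.2.1]
    refine ⟨_, ⟨_, ?_, rfl⟩, rfl⟩
    simp only [mem_ofPred_eq]
    have e2 : 0 < 1 / ((n : ℝ) + 1) := by positivity
    have e3 : 1 / ((n : ℝ) + 1) ≤ 1 := by
      rw [div_le_one (by positivity)]
      have : (0 : ℝ) ≤ n := Nat.cast_nonneg _
      linarith
    have e4 : ((1 - 1 / ((n : ℝ) + 1)) * Real.cos t) ^ 2 +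
        ((1 - 1 / ((n : ℝ) + 1)) * Real.sin t) ^ 2 = (1 - 1 / ((n : ℝ) + 1)) ^ 2 := by
      have := Real.sin_sq_add_cos_sq t
      linear_combination (1 - 1 / ((n : ℝ) + 1)) ^ 2 * this
    rw [e4]
    nlinarith
  obtain ⟨w, hw, hw'⟩ := h3
  exact ⟨w, hw, by rw [hw']; exact hn⟩

end Vale.Agent.P167.H397.Q
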