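import Vale.Agent.P167.H397.Q.S2Defs
import Vale.Agent.P153.R2.TOP.Log

/-!
# P167, general `q`, Stage II: increments of the logarithm along paths
-/

set_option autoImplicit false

open MeasureTheory Filter Topology Set

namespace Vale.Agent.P167.H397.Q

open Vale.Agent.P167.E6 Vale.Agent.P167.E2
open P153.TOP

/-- `d` is the increment of a continuous logarithm of `y - z` on the interval `[a, b]`. -/
def IncOn (y : ℝ → ℂ) (a b : ℝ) (z d : ℂ) : Prop :=
  ∃ θ : ℝ → ℂ, ContinuousOn θ (Icc a b) ∧ (∀ t ∈ Icc a b, Complex.exp (θ t) = y t - z) ∧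
    θ b - θ a = d

section

variable {y y' : ℝ → ℂ} {a b c : ℝ} {z z' d d' : ℂ}

theorem IncOn.ne (h : IncOn y a b z d) {t : ℝ} (ht : t ∈ Icc a b) : y t ≠ z := by
  obtain ⟨θ, -, h2, -⟩ := h
  intro h0
  have := h2 t ht
  rw [h0, sub_self] at this
  exact Complex.exp_ne_zero _ this

theorem exists_incOn (hy : ContinuousOn y (Icc a b)) (hz : ∀ t ∈ Icc a b, y t ≠ z) :
    ∃ d, IncOn y a b z d := by
  have h1 : ContinuousOn (fun t => y t - z) (Icc a b) := hy.sub continuousOn_const
  obtain ⟨F, hF, hF'⟩ := hasLogOn_of_convex (convex_Icc a b) (fun t => y t - z) h1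
    (fun t ht h => hz t ht (sub_eq_zero.1 h))
  exact ⟨_, F, hF, hF', rfl⟩

theorem IncOn.unique (hab : a ≤ b) (h : IncOn y a b z d) (h' : IncOn y a b z d') : d = d' := by
  obtain ⟨θ, h1, h2, rfl⟩ := h
  obtain ⟨θ', h1', h2', rfl⟩ := h'
  have := log_diff_const isPreconnected_Icc h1 h1' (fun t ht => by rw [h2 t ht, h2' t ht])
    (right_mem_Icc.2 hab) (left_mem_Icc.2 hab)
  linear_combination this

theorem IncOn.congr (h : IncOn y a b z d) (he : ∀ t ∈ Icc a b, y' t = y t) :
    IncOn y' a b z d := by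
  obtain ⟨θ, h1, h2, h3⟩ := h
  exact ⟨θ, h1, fun t ht => by rw [h2 t ht, he t ht], h3⟩

theorem IncOn.split (hab : a ≤ b) (hbc : b ≤ c) (h : IncOn y a c z d) :
    ∃ d₁ d₂, IncOn y a b z d₁ ∧ IncOn y b c z d₂ ∧ d₁ + d₂ = d := by
  obtain ⟨θ, h1, h2, h3⟩ := h
  refine ⟨θ b - θ a, θ c - θ b, ⟨θ, h1.mono (Icc_subset_Icc_right hbc), fun t ht =>
    h2 t ⟨ht.1, ht.2.trans hbc⟩, rfl⟩, ⟨θ, h1.mono (Icc_subset_Icc_left hab), fun t ht =>
    h2 t ⟨hab.trans ht.1, ht.2⟩, rfl⟩, ?_⟩
  rw [← h3]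
  ring

/-- Reparametrisation by an increasing or decreasing map. -/
theorem IncOn.comp {σ : ℝ → ℝ} {a' b' : ℝ} (h : IncOn y a b z d) (hσ : ContinuousOn σ (Icc a' b'))
    (hm : MapsTo σ (Icc a' b') (Icc a b)) (ha : σ a' = a) (hb : σ b' = b) :
    IncOn (fun t => y (σ t)) a' b' z d := by
  obtain ⟨θ, h1, h2, h3⟩ := h
  exact ⟨fun t => θ (σ t), h1.comp hσ hm, fun t ht => h2 _ (hm ht), by
    simp only [ha, hb]; exact h3⟩

theorem slit_of_near {u v : ℂ} (h : ‖v - u‖ < ‖u‖) : v / u ∈ Complex.slitPlane := by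
  have hu : u ≠ 0 := by
    rintro rfl
    rw [norm_zero] at h
    exact absurd h (not_lt.2 (norm_nonneg _))
  have h1 : ‖v / u - 1‖ < 1 := by
    have : v / u - 1 = (v - u) / u := by field_simp
    rw [this, norm_div, div_lt_one (norm_pos_iff.2 hu)]
    exact h
  have := Complex.mem_slitPlane_of_norm_lt_one h1
  simpa using this

/-- **Stability.** -/
theorem IncOn.near (h : IncOn y a b z d) (hy : ContinuousOn y (Icc a b))
    (hy' : ContinuousOn y' (Icc a b))
    (hn : ∀ t ∈ Icc a b, ‖(y' t - z') - (y t - z)‖ < ‖y t - z‖) :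
    IncOn y' a b z' (d + (Complex.log ((y' b - z') / (y b - z)) -
      Complex.log ((y' a - z') / (y a - z)))) := by
  obtain ⟨θ, h1, h2, rfl⟩ := h
  have hne : ∀ t ∈ Icc a b, y t - z ≠ 0 := by
    intro t ht h0
    have := hn t ht
    rw [h0, norm_zero] at this
    exact absurd this (not_lt.2 (norm_nonneg _))
  refine ⟨fun t => θ t + Complex.log ((y' t - z') / (y t - z)), h1.add ?_, fun t ht => ?_, by ring⟩
  · exact ((hy'.sub continuousOn_const).div (hy.sub continuousOn_const) hne).clog fun t ht =>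
      slit_of_near (hn t ht)
  · rw [Complex.exp_add, h2 t ht, Complex.exp_log (Complex.slitPlane_ne_zero
      (slit_of_near (hn t ht)))]
    field_simp [hne t ht]

/-- The segment. -/
theorem incOn_segment {u v : ℂ} (hu : u ≠ z) (hs : (v - z) / (u - z) ∈ Complex.slitPlane)
    (hy : ∀ t ∈ Icc (0 : ℝ) 1, y (a + t) = u + (t : ℂ) * (v - u)) :
    IncOn y a (a + 1) z (Complex.log ((v - z) / (u - z))) := by
  have hu' : u - z ≠ 0 := sub_ne_zero.2 hu
  have key : ∀ t ∈ Icc (0 : ℝ) 1, 1 + (t : ℂ) * ((v - z) / (u - z) - 1) ∈ Complex.slitPlane := by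
    intro t ht
    have h1 := Complex.starConvex_one_slitPlane hs (sub_nonneg.2 ht.2) ht.1 (by ring)
    convert h1 using 1
    simp only [Complex.real_smul, Complex.ofReal_sub, Complex.ofReal_one]
    ring
  have hl : ∀ t ∈ Icc a (a + 1), t - a ∈ Icc (0 : ℝ) 1 := fun t ht => ⟨by linarith [ht.1], by
    linarith [ht.2]⟩
  refine ⟨fun t => Complex.log (u - z) +
    Complex.log (1 + ((t - a : ℝ) : ℂ) * ((v - z) / (u - z) - 1)), ?_, fun t ht => ?_, ?_⟩
  · refine continuousOn_const.add (ContinuousOn.clog (by fun_prop) fun t ht => key _ (hl t ht))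
  · rw [Complex.exp_add, Complex.exp_log hu', Complex.exp_log (Complex.slitPlane_ne_zero
      (key _ (hl t ht)))]
    have h2 := hy (t - a) (hl t ht)
    rw [show a + (t - a) = t by ring] at h2
    rw [h2]
    field_simp
    ring
  · simp only [sub_self, Complex.ofReal_zero, zero_mul, add_zero, Complex.log_one,
      add_sub_cancel_left, Complex.ofReal_one, one_mul]
    rw [show (1 : ℂ) + ((v - z) / (u - z) - 1) = (v - z) / (u - z) by ring]

end

/-- **Polygonal curves.** -/
theorem incOn_lin {x : ℕ → ℂ} {z : ℂ} (m : ℕ) (hx : ∀ j ≤ m, x j ≠ z)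
    (hs : ∀ j < m, (x (j + 1) - z) / (x j - z) ∈ Complex.slitPlane) :
    IncOn (lin x) 0 m z (∑ j ∈ Finset.range m, Complex.log ((x (j + 1) - z) / (x j - z))) := by
  -- the curve avoids `z`
  have hseg : ∀ j < m, IncOn (lin x) j ((j : ℝ) + 1) z
      (Complex.log ((x (j + 1) - z) / (x j - z))) := by
    intro j hj
    refine incOn_segment (hx j hj.le) (hs j hj) fun t ht => ?_
    rw [lin_eq x j (Or.inl (by linarith [ht.1])) (by linarith [ht.2])]
    congr 2
    push_cast
    ring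
  have hne : ∀ j ≤ m, ∀ t ∈ Icc (0 : ℝ) j, lin x t ≠ z := by
    intro j hj t ht
    rcases eq_or_lt_of_le ht.2 with h | h
    · rw [h, lin_nat]
      exact hx j hj
    · have h1 : ⌊t⌋₊ < j := (Nat.floor_lt ht.1).2 h
      have h2 : (⌊t⌋₊ : ℝ) ≤ t := Nat.floor_le ht.1
      exact (hseg _ (h1.trans_le hj)).ne ⟨h2, (Nat.lt_floor_add_one t).le⟩
  have key : ∀ j ≤ m, IncOn (lin x) 0 j z
      (∑ i ∈ Finset.range j, Complex.log ((x (i + 1) - z) / (x i - z))) := by
    intro j
    induction j with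
    | zero =>
      intro _
      obtain ⟨d, hd⟩ := exists_incOn (y := lin x) (a := 0) (b := 0) (z := z)
        (continuous_lin x).continuousOn (fun t ht => hne 0 (Nat.zero_le _) t (by
          simpa using ht))
      have h0 : d = 0 := by
        obtain ⟨θ, -, -, rfl⟩ := hd
        simp
      simpa [h0] using hd
    | succ j ih =>
      intro hj
      obtain ⟨d, hd⟩ := exists_incOn (y := lin x) (a := 0) (b := ((j + 1 : ℕ) : ℝ)) (z := z)
        (continuous_lin x).continuousOn (hne (j + 1) hj)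
      obtain ⟨d₁, d₂, h1, h2, rfl⟩ := hd.split (b := (j : ℝ)) (Nat.cast_nonneg _)
        (by push_cast; linarith)
      have e1 := h1.unique (Nat.cast_nonneg _) (ih (by omega))
      have h3 := hseg j (by omega)
      have e2 : d₂ = Complex.log ((x (j + 1) - z) / (x j - z)) := by
        refine IncOn.unique (by push_cast; linarith) h2 ?_
        push_cast
        exact h3
      rw [Finset.sum_range_succ, ← e1, ← e2]
      exact hd
  exact key m le_rfl

/-! ### Curves on the unit interval -/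

section

variable {c c' : C(unitInterval, ℂ)} {z z' d d' : ℂ}

/-- the extension of a curve to the line -/
noncomputable def ext (c : C(unitInterval, ℂ)) (t : ℝ) : ℂ := c (projIcc 0 1 zero_le_one t)

theorem continuous_ext (c : C(unitInterval, ℂ)) : Continuous (ext c) :=
  c.continuous.comp continuous_projIcc

theorem ext_coe (c : C(unitInterval, ℂ)) (t : unitInterval) : ext c t = c t := by
  unfold ext
  rw [projIcc_val]

theorem isInc_iff : IsInc c z d ↔ IncOn (ext c) 0 1 z d := by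
  constructor
  · rintro ⟨θ, h1, h2⟩
    refine ⟨ext θ, (continuous_ext θ).continuousOn, fun t _ => h1 _, ?_⟩
    have e0 : ext θ 0 = θ 0 := by simpa using ext_coe θ 0
    have e1 : ext θ 1 = θ 1 := by simpa using ext_coe θ 1
    rw [e0, e1, h2]
  · rintro ⟨θ, h0, h1, h2⟩
    refine ⟨⟨fun t => θ t, ?_⟩, fun t => ?_, ?_⟩
    · exact h0.comp_continuous continuous_subtype_val fun t => t.2
    · simp only [ContinuousMap.coe_mk]
      rw [h1 t t.2, ext_coe]
    · simpa using h2

theorem exists_isInc (h : ∀ t, c t ≠ z) : ∃ d, IsInc c z d := by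
  obtain ⟨d, hd⟩ := exists_incOn (y := ext c) (a := 0) (b := 1) (z := z)
    (continuous_ext c).continuousOn fun t _ => h _
  exact ⟨d, isInc_iff.2 hd⟩

theorem IsInc.ne (h : IsInc c z d) (t : unitInterval) : c t ≠ z := by
  obtain ⟨θ, h1, -⟩ := h
  intro h0
  have := h1 t
  rw [h0, sub_self] at this
  exact Complex.exp_ne_zero _ this

theorem IsInc.unique (h : IsInc c z d) (h' : IsInc c z d') : d = d' :=
  (isInc_iff.1 h).unique zero_le_one (isInc_iff.1 h')

/-- **Stability.** -/
theorem IsInc.near (h : IsInc c z d) (hn : ∀ t, ‖(c' t - z') - (c t - z)‖ < ‖c t - z‖) :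
    IsInc c' z' (d + (Complex.log ((c' 1 - z') / (c 1 - z)) -
      Complex.log ((c' 0 - z') / (c 0 - z)))) := by
  have h1 := (isInc_iff.1 h).near (y' := ext c') (z' := z') (continuous_ext c).continuousOn
    (continuous_ext c').continuousOn fun t _ => hn _
  have e0 : ∀ x : C(unitInterval, ℂ), ext x 0 = x 0 := fun x => by simpa using ext_coe x 0
  have e1 : ∀ x : C(unitInterval, ℂ), ext x 1 = x 1 := fun x => by simpa using ext_coe x 1
  rw [e0, e0, e1, e1] at h1
  exact isInc_iff.2 h1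

/-- **Reparametrisation.** -/
theorem IsInc.comp (h : IsInc c z d) (σ : C(unitInterval, unitInterval)) (h0 : σ 0 = 0)
    (h1 : σ 1 = 1) : IsInc (c.comp σ) z d := by
  obtain ⟨θ, h2, h3⟩ := h
  exact ⟨θ.comp σ, fun t => h2 _, by simp only [ContinuousMap.comp_apply, h0, h1]; exact h3⟩

theorem isInc_comp_iff (σ : C(unitInterval, unitInterval)) (hs : StrictMono σ)
    (hσ : Function.Surjective σ) : IsInc (c.comp σ) z d ↔ IsInc c z d := by
  have h0 : σ 0 = 0 := by
    obtain ⟨t, ht⟩ := hσ 0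
    have h2 : σ 0 ≤ σ t := hs.monotone unitInterval.nonneg'
    rw [ht] at h2
    exact le_antisymm h2 unitInterval.nonneg'
  have h1 : σ 1 = 1 := by
    obtain ⟨t, ht⟩ := hσ 1
    have h2 : σ t ≤ σ 1 := hs.monotone unitInterval.le_one'
    rw [ht] at h2
    exact le_antisymm unitInterval.le_one' h2
  constructor
  · intro h
    obtain ⟨d', hd'⟩ := exists_isInc (c := c) (z := z) fun t => by
      obtain ⟨s, rfl⟩ := hσ t
      exact h.ne s
    rw [h.unique (hd'.comp σ h0 h1)]
    exact hd'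
  · intro h
    exact h.comp σ h0 h1

/-- **Transfer**: `Λ` is a continuous logarithm of `(f x - z') / (x - z)` on the curve. -/
theorem IsInc.transfer {f : ℂ → ℂ} {Λ : ℂ → ℂ} {K : Set ℂ} (h : IsInc c z d)
    (hK : ∀ t, c t ∈ K) (hΛ : ContinuousOn Λ K)
    (he : ∀ x ∈ K, x ≠ z → Complex.exp (Λ x) * (x - z) = f x - z')
    (hc' : ∀ t, c' t = f (c t)) : IsInc c' z' (d + (Λ (c 1) - Λ (c 0))) := by
  have hz := h.ne
  obtain ⟨θ, h2, rfl⟩ := h
  have hcc : Continuous fun t => Λ (c t) := hΛ.comp_continuous c.continuous hK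
  refine ⟨θ + ⟨fun t => Λ (c t), hcc⟩, fun t => ?_, ?_⟩
  · simp only [ContinuousMap.add_apply, ContinuousMap.coe_mk]
    rw [Complex.exp_add, h2, hc', mul_comm, he _ (hK t) (hz t)]
  · simp only [ContinuousMap.add_apply, ContinuousMap.coe_mk]
    ring

/-- **Polygonal curves.** -/
theorem isInc_poly {x : ℕ → ℂ} (m : ℕ) (hx : ∀ j ≤ m, x j ≠ z)
    (hs : ∀ j < m, (x (j + 1) - z) / (x j - z) ∈ Complex.slitPlane)
    (hc : ∀ t : unitInterval, c t = poly x m t) :
    IsInc c z (∑ j ∈ Finset.range m, Complex.log ((x (j + 1) - z) / (x j - z))) := by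
  rw [isInc_iff]
  have h1 := (incOn_lin m hx hs).comp (σ := fun t => t * m) (a' := 0) (b' := 1)
    (by fun_prop) (fun t ht => ⟨mul_nonneg ht.1 (Nat.cast_nonneg _), by
      have := mul_le_mul_of_nonneg_right ht.2 (Nat.cast_nonneg (α := ℝ) m)
      linarith⟩) (by simp) (by simp)
  refine h1.congr fun t ht => ?_
  have := ext_coe c ⟨t, ht⟩
  simp only at this
  rw [this, hc, poly_eq]

end

/-- A ratio near one. -/
theorem abs_im_log_le {w : ℂ} {ε : ℝ} (hε : ε ≤ 1 / 2) (h : ‖w - 1‖ ≤ ε) :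
    |(Complex.log w).im| ≤ 2 * ε := by
  have h1 : ‖Complex.log w‖ ≤ 2 * ‖w - 1‖ := by
    have h2 := Complex.norm_log_one_add_half_le_self (z := w - 1) (by linarith)
    rw [add_sub_cancel] at h2
    linarith [norm_nonneg (w - 1)]
  exact (Complex.abs_im_le_norm _).trans (by linarith)

end Vale.Agent.P167.H397.Q
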