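import Vale.Agent.P167.H397.Q.Two
import Vale.Agent.P167.QE.Ft

/-!
# P167, general `q`, Stage II: the classes of staircases do not see the starting point
-/

set_option autoImplicit false

namespace Vale.Agent.P167.H397.Q

open Filter Topology Set
open Vale.Agent.P167.QE (Cls Stair)

theorem invB_stair (d : Fin 4) : InvB (Stair d) := by
  intro Φ Φ' δ N k j p S hj ⟨r, hr, h⟩
  refine ⟨r, hr, h.mono fun n hn m hm => ?_⟩
  have e : ((k n - j n : ℕ) : ZMod (N n)) + ((j n : ℕ) : ZMod (N n)) = (k n : ZMod (N n)) := by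
    rw [← Nat.cast_add, Nat.sub_add_cancel (hj n).le]
  have e1 : ((k n - j n : ℕ) : ZMod (N n)) + m + 1 + ((j n : ℕ) : ZMod (N n)) =
      (k n : ZMod (N n)) + m + 1 := by rw [← e]; ring
  have e2 : ((k n - j n : ℕ) : ZMod (N n)) + m + ((j n : ℕ) : ZMod (N n)) =
      (k n : ZMod (N n)) + m := by rw [← e]; ring
  have e3 : ((k n - j n : ℕ) : ZMod (N n)) - m + ((j n : ℕ) : ZMod (N n)) =
      (k n : ZMod (N n)) - m := by rw [← e]; ring
  have e4 : ((k n - j n : ℕ) : ZMod (N n)) - m - 1 + ((j n : ℕ) : ZMod (N n)) =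
      (k n : ZMod (N n)) - m - 1 := by rw [← e]; ring
  have h1 := hn m hm
  show p n (_ + ((j n : ℕ) : ZMod (N n))) = p n (_ + ((j n : ℕ) : ZMod (N n))) + _ ∧
    p n (_ + ((j n : ℕ) : ZMod (N n))) = p n (_ + ((j n : ℕ) : ZMod (N n))) + _
  rw [e1, e2, e3, e4]
  exact h1

/-- A union of classes. -/
theorem invB_iUnion {ι : Type*} {K : ι → Cls} (h : ∀ i, InvB (K i)) :
    InvB fun Φ δ N k p S => ∃ i, K i Φ δ N k p S := by
  rintro Φ Φ' δ N k j p S hj ⟨i, hi⟩
  exact ⟨i, h i Φ Φ' δ N k j p S hj hi⟩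

end Vale.Agent.P167.H397.Q
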