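import Vale.Agent.P167.H397.Q.Pas
import Vale.Agent.P167.H397.Q.Stair
import Vale.Agent.P167.H192.S2.FWf
import Vale.Agent.P167.H634.S2.Rot
import Vale.Agent.P167.H634.S2.RotA
import Vale.Agent.P167.H264.Mono

/-!
# P167, general `q`, Stage II: the final output of the block S2-LZ
-/

set_option autoImplicit false

namespace Vale.Agent.P167.H397.Q

open Vale.Agent.P167.QE (Cls Stair CurveLimitOn wq)

/-- The probabilities of `L` converge. -/
theorem s_pasF {K : Cls} {q : ℝ} (h1 : 1 ≤ q) (h4 : q ≤ 4) : S_pas K q :=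
  s_pas1 h1 h4 (H192.S2.s_free h1 h4) (H192.S2.s_wired h1 h4)

/-- Monotonicity. -/
theorem mono_K {K : Cls} {q : ℝ} {h : ℂ → ℝ} (h1 : 1 ≤ q) (hne : K.Ne) (hK : InvB K) (hP : PasF h)
    (hL : PasLim K q h) : Mono h :=
  mono_of h1 (H634.S2.s_rot h1) (two_of H634.S2.s_rotA hne hK) hP hL

/-- **The output of the block S2-LZ**: from the convergence of the curves in the class `K`, the
convergence of the probabilities of `L` in the class `K`; the limit is a monotone nonconstant function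
of the angle. -/
theorem pas_main {K : Cls} {q : ℝ} (h1 : 1 ≤ q) (h4 : q ≤ 4) (hne : K.Ne) (hK : InvB K)
    (hC : CurveLimitOn K (Final.kappa q) (wq q)) :
    ∃ h : ℂ → ℝ, PasF h ∧ Mono h ∧ PasLim K q h := by
  obtain ⟨h, hP, hL⟩ := s_pasF h1 h4 hC
  exact ⟨h, hP, mono_K h1 hne hK hP hL, hL⟩

/-- The class of staircases. -/
theorem pas_stair {q : ℝ} (h1 : 1 ≤ q) (h4 : q ≤ 4) (d : Fin 4) (hne : (Stair d).Ne)
    (hC : CurveLimitOn (Stair d) (Final.kappa q) (wq q)) :
    ∃ h : ℂ → ℝ, PasF h ∧ Mono h ∧ PasLim (Stair d) q h :=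
  pas_main h1 h4 hne (invB_stair d) hC

end Vale.Agent.P167.H397.Q
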