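import Vale.Agent.P167.H397.Q.Tra3
import Vale.Agent.P167.QG.Arg6
import Vale.Agent.P167.QC.S2Near

/-!
# P167, general `q`, Stage II: the output of the block S2-LZ
-/

set_option autoImplicit false

namespace Vale.Agent.P167.H397.Q

open Vale.Agent.P167.QE (Cls)

/-- The output of the block, from the behaviour of `L` at the boundary. -/
theorem s_pas1 {K : Cls} {q : ℝ} (h1 : 1 ≤ q) (h4 : q ≤ 4) (hf : S_free q) (hw : S_wired q) :
    S_pas K q :=
  s_pas (by linarith) QG.s_ind (QC.s_near h1 h4) hf hw

end Vale.Agent.P167.H397.Q
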