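import Vale.Agent.P167.H397.Q.Inc

/-!
# P167, general `q`, Stage II: continuous functionals of curves
-/

set_option autoImplicit false

open MeasureTheory Filter Topology Set

namespace Vale.Agent.P167.H397.Q

open Vale.Agent.P167.E6 Vale.Agent.P167.E2

section

variable {c c' : C(unitInterval, ℂ)} {z z' d d' : ℂ}

/-! ### The distance of a curve from a point -/

/-- The distance of the point `z` from the curve `c`. -/
noncomputable def md (c : C(unitInterval, ℂ)) (z : ℂ) : ℝ := Metric.infDist z (Set.range c)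

theorem md_nonneg (c : C(unitInterval, ℂ)) (z : ℂ) : 0 ≤ md c z := Metric.infDist_nonneg

theorem md_le (c : C(unitInterval, ℂ)) (z : ℂ) (t : unitInterval) : md c z ≤ dist (c t) z := by
  rw [dist_comm]
  exact Metric.infDist_le_dist_of_mem (mem_range_self t)

theorem exists_md (c : C(unitInterval, ℂ)) (z : ℂ) : ∃ t, md c z = dist (c t) z := by
  obtain ⟨y, ⟨t, rfl⟩, h⟩ := (isCompact_range c.continuous).exists_infDist_eq_dist
    (range_nonempty c) z
  exact ⟨t, by rw [dist_comm]; exact h⟩

theorem lt_md {r : ℝ} : r < md c z ↔ ∀ t, r < dist (c t) z := by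
  constructor
  · intro h t
    exact h.trans_le (md_le c z t)
  · intro h
    obtain ⟨t, ht⟩ := exists_md c z
    rw [ht]
    exact h t

theorem le_md {r : ℝ} : r ≤ md c z ↔ ∀ t, r ≤ dist (c t) z := by
  constructor
  · intro h t
    exact h.trans (md_le c z t)
  · intro h
    obtain ⟨t, ht⟩ := exists_md c z
    rw [ht]
    exact h t

theorem md_le_add (c c' : C(unitInterval, ℂ)) (z : ℂ) : md c z ≤ md c' z + dist c c' := by
  obtain ⟨t, ht⟩ := exists_md c' z
  have h1 := md_le c z t
  have h2 := ContinuousMap.dist_apply_le_dist (f := c) (g := c') t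
  have h3 := dist_triangle (c t) (c' t) z
  linarith

theorem continuous_md (z : ℂ) : Continuous fun c : C(unitInterval, ℂ) => md c z := by
  refine LipschitzWith.continuous (K := 1) (LipschitzWith.of_dist_le_mul fun c c' => ?_)
  rw [Real.dist_eq, NNReal.coe_one, one_mul, abs_le]
  have h1 := md_le_add c c' z
  have h2 := md_le_add c' c z
  rw [dist_comm c' c] at h2
  constructor <;> linarith

theorem md_comp (σ : C(unitInterval, unitInterval)) (hσ : Function.Surjective σ) :
    md (c.comp σ) z = md c z := by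
  unfold md
  congr 1
  ext y
  simp only [mem_range, ContinuousMap.comp_apply]
  constructor
  · rintro ⟨t, h⟩
    exact ⟨_, h⟩
  · rintro ⟨t, h⟩
    obtain ⟨s, rfl⟩ := hσ t
    exact ⟨s, h⟩

/-! ### The increment as a function of the curve -/

open Classical in
/-- The increment of the logarithm of `c - z`. -/
noncomputable def incv (c : C(unitInterval, ℂ)) (z : ℂ) : ℂ :=
  if h : ∃ d, IsInc c z d then h.choose else 0

theorem IsInc.incv (h : IsInc c z d) : incv c z = d := by
  have h1 : ∃ d, IsInc c z d := ⟨d, h⟩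
  unfold Q.incv
  rw [dif_pos h1]
  exact h1.choose_spec.unique h

theorem isInc_incv (h : ∀ t, c t ≠ z) : IsInc c z (incv c z) := by
  obtain ⟨d, hd⟩ := exists_isInc h
  rw [hd.incv]
  exact hd

theorem ne_of_md (h : 0 < md c z) (t : unitInterval) : c t ≠ z := by
  intro h0
  have := md_le c z t
  rw [h0, dist_self] at this
  linarith

theorem incv_comp (σ : C(unitInterval, unitInterval)) (hs : StrictMono σ)
    (hσ : Function.Surjective σ) : incv (c.comp σ) z = incv c z := by
  by_cases h : ∃ d, IsInc c z d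
  · obtain ⟨d, hd⟩ := h
    rw [hd.incv, ((isInc_comp_iff σ hs hσ).2 hd).incv]
  · have h' : ¬ ∃ d, IsInc (c.comp σ) z d := fun ⟨d, hd⟩ => h ⟨d, (isInc_comp_iff σ hs hσ).1 hd⟩
    unfold Q.incv
    rw [dif_neg h, dif_neg h']

theorem continuousAt_incv (h : 0 < md c z) :
    ContinuousAt (fun c' : C(unitInterval, ℂ) => incv c' z) c := by
  have hne := ne_of_md h
  have hd := isInc_incv hne
  have h1 : ∀ᶠ c' in 𝓝 c, incv c' z = incv c z + (Complex.log ((c' 1 - z) / (c 1 - z)) -
      Complex.log ((c' 0 - z) / (c 0 - z))) := by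
    filter_upwards [Metric.ball_mem_nhds c h] with c' hc'
    refine (hd.near (c' := c') (z' := z) fun t => ?_).incv
    have h2 := ContinuousMap.dist_apply_le_dist (f := c') (g := c) t
    have h3 := md_le c z t
    rw [Metric.mem_ball] at hc'
    rw [dist_eq_norm] at h2 h3
    have e : (c' t - z) - (c t - z) = c' t - c t := by ring
    rw [e]
    linarith
  have key : ∀ t : unitInterval, ContinuousAt (fun c' : C(unitInterval, ℂ) =>
      Complex.log ((c' t - z) / (c t - z))) c := by
    intro t
    refine ContinuousAt.clog ?_ ?_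
    · exact (((continuous_eval_const t).sub continuous_const).div_const _).continuousAt
    · rw [div_self (sub_ne_zero.2 (hne t))]
      exact Complex.one_mem_slitPlane
  refine ContinuousAt.congr (f := fun c' : C(unitInterval, ℂ) => incv c z +
    (Complex.log ((c' 1 - z) / (c 1 - z)) - Complex.log ((c' 0 - z) / (c 0 - z)))) ?_ ?_
  · exact continuousAt_const.add ((key 1).sub (key 0))
  · filter_upwards [h1] with c' hc'
    exact hc'.symm

/-! ### The functionals -/

/-- The cutoff: `0` on `(-∞, ε / 2]`, `1` on `[ε, ∞)`. -/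
noncomputable def cut (ε x : ℝ) : ℝ := max 0 (min 1 (2 * x / ε - 1))

theorem cut_nonneg (ε x : ℝ) : 0 ≤ cut ε x := le_max_left _ _

theorem cut_le_one (ε x : ℝ) : cut ε x ≤ 1 := max_le zero_le_one (min_le_left _ _)

theorem cut_one {ε x : ℝ} (hε : 0 < ε) (h : ε ≤ x) : cut ε x = 1 := by
  unfold cut
  have h1 : 1 ≤ 2 * x / ε - 1 := by
    have : 2 ≤ 2 * x / ε := by rw [le_div_iff₀ hε]; linarith
    linarith
  rw [min_eq_left h1, max_eq_right zero_le_one]

theorem cut_zero {ε x : ℝ} (hε : 0 < ε) (h : x ≤ ε / 2) : cut ε x = 0 := by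
  unfold cut
  have h1 : 2 * x / ε - 1 ≤ 0 := by
    have : 2 * x / ε ≤ 1 := by rw [div_le_iff₀ hε]; linarith
    linarith
  rw [min_eq_right (h1.trans zero_le_one), max_eq_left h1]

theorem continuous_cut (ε : ℝ) : Continuous (cut ε) := by unfold cut; fun_prop

/-- The functional. -/
noncomputable def Fg (ε : ℝ) (g : ℝ → ℝ) (e : ℝ) (z : ℂ) (c : C(unitInterval, ℂ)) : ℝ :=
  cut ε (md c z) * g ((incv c z).im + e)

theorem continuous_Fg {ε : ℝ} (hε : 0 < ε) {g : ℝ → ℝ} (hg : Continuous g) (e : ℝ) (z : ℂ) :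
    Continuous (Fg ε g e z) := by
  rw [continuous_iff_continuousAt]
  intro c
  by_cases h : 0 < md c z
  · unfold Fg
    refine ((continuous_cut ε).comp (continuous_md z)).continuousAt.mul ?_
    refine hg.continuousAt.comp ?_
    exact (Complex.continuous_im.continuousAt.comp (continuousAt_incv h)).add continuousAt_const
  · have h1 : ∀ᶠ c' in 𝓝 c, Fg ε g e z c' = 0 := by
      filter_upwards [(continuous_md z).continuousAt.eventually
        (gt_mem_nhds (show md c z < ε / 2 by linarith))] with c' hc'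
      unfold Fg
      rw [cut_zero hε (le_of_lt hc'), zero_mul]
    have h2 : Fg ε g e z c = 0 := h1.self_of_nhds
    rw [ContinuousAt, h2]
    exact (tendsto_const_nhds (x := (0 : ℝ))).congr' (by
      filter_upwards [h1] with c' hc'
      exact hc'.symm)

theorem abs_Fg_le {ε : ℝ} {g : ℝ → ℝ} {M : ℝ} (hg : ∀ x, |g x| ≤ M) (e : ℝ) (z : ℂ)
    (c : C(unitInterval, ℂ)) : |Fg ε g e z c| ≤ M := by
  unfold Fg
  rw [abs_mul, abs_of_nonneg (cut_nonneg _ _)]
  have h1 := cut_le_one ε (md c z)
  have h2 := cut_nonneg ε (md c z)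
  have h3 := hg ((incv c z).im + e)
  have h4 := abs_nonneg (g ((incv c z).im + e))
  nlinarith

theorem Fg_comp (ε : ℝ) (g : ℝ → ℝ) (e : ℝ) (z : ℂ) (c : C(unitInterval, ℂ))
    (σ : C(unitInterval, unitInterval)) (hs : StrictMono σ) (hσ : Function.Surjective σ) :
    Fg ε g e z (c.comp σ) = Fg ε g e z c := by
  unfold Fg
  rw [md_comp σ hσ, incv_comp σ hs hσ]

end

/-- The step function at the height `π`. -/
noncomputable def stp (x : ℝ) : ℝ := max 0 (min 1 (x - Real.pi + 1 / 2))

theorem continuous_stp : Continuous stp := by unfold stp; fun_prop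

theorem stp_nonneg (x : ℝ) : 0 ≤ stp x := le_max_left _ _

theorem stp_le_one (x : ℝ) : stp x ≤ 1 := max_le zero_le_one (min_le_left _ _)

theorem abs_stp_le (x : ℝ) : |stp x| ≤ 1 := by
  rw [abs_of_nonneg (stp_nonneg x)]
  exact stp_le_one x

theorem stp_one {x : ℝ} (h : Real.pi + 1 / 2 ≤ x) : stp x = 1 := by
  unfold stp
  rw [min_eq_left (by linarith), max_eq_right zero_le_one]

theorem stp_zero {x : ℝ} (h : x ≤ Real.pi - 1 / 2) : stp x = 0 := by
  unfold stp
  rw [min_eq_right (by linarith), max_eq_left (by linarith)]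

end Vale.Agent.P167.H397.Q
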