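import Vale.Agent.P167.H397.Q.Port1

/-!
# P167, general `q`, Stage II: the increment along the wired arc
-/

set_option autoImplicit false

open MeasureTheory Filter Topology Set

namespace Vale.Agent.P167.H397.Q

open Vale.Agent.P167.E6 Vale.Agent.P167.E2
open Vale.Agent.P153.R2.Final (dom circ toC IsUniformizer)

/-- Polygonal curves near a curve. -/
theorem inc_poly_near {M : ℕ} {x : ℕ → ℂ} {s : ℕ → ℝ} {y w : C(unitInterval, ℂ)} {z b e : ℂ}
    {ε ρ : ℝ} (hρ : 0 < ρ) (hε : 0 < ε) (h8 : 8 * ε ≤ ρ) (hs : Monotone s) (h0 : s 0 = 0)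
    (h1 : s (M + 1) = 1) (hx : ∀ j ≤ M, ∀ t ∈ Icc (s j) (s (j + 1)), dist (x j) (ext y t) < ε)
    (hstep : ∀ j < M, dist (x j) (x (j + 1)) ≤ ε) (hy : ∀ t, ρ ≤ dist (y t) z)
    (hw : ∀ t : unitInterval, w t = poly x M t) (hb : IsInc w z b) (he : IsInc y z e) :
    |b.im - e.im| ≤ 16 * ε / ρ := by
  have hy' : ∀ t : ℝ, ρ ≤ ‖ext y t - z‖ := by
    intro t
    rw [← dist_eq_norm]
    exact hy _
  have hy0 : ∀ t : ℝ, ext y t - z ≠ 0 := fun t h => by
    have := hy' t
    rw [h, norm_zero] at this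
    linarith
  set σ : ℝ → ℝ := fun u => (lin (fun j => (s j : ℂ)) u).re with hσ
  have hσc : Continuous σ := Complex.continuous_re.comp (continuous_lin _)
  -- the pieces
  have hfl : ∀ u ∈ Icc (0 : ℝ) M, ∃ j ≤ M, (j : ℝ) ≤ u ∧ u ≤ j + 1 ∧ (j = M → u = M) := by
    intro u hu
    have h2 : (⌊u⌋₊ : ℝ) ≤ u := Nat.floor_le hu.1
    have h3 : ⌊u⌋₊ ≤ M := by exact_mod_cast h2.trans hu.2
    exact ⟨⌊u⌋₊, h3, h2, (Nat.lt_floor_add_one u).le, fun h => le_antisymm hu.2 (by rwa [h] at h2)⟩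
  have hσm : ∀ (u : ℝ) (j : ℕ), j ≤ M → (j : ℝ) ≤ u → u ≤ j + 1 → (j = M → u = M) →
      s j ≤ σ u ∧ σ u ≤ s (j + 1) ∧ σ u ≤ s M := by
    intro u j hj h2 h3 h4
    have h5 : σ u = s j + (u - j) * (s (j + 1) - s j) := by
      rw [hσ]
      beta_reduce
      rw [lin_eq _ j (Or.inl h2) h3, ← Complex.ofReal_sub, ← Complex.ofReal_mul,
        ← Complex.ofReal_add, Complex.ofReal_re]
    have h6 : s j ≤ s (j + 1) := hs (Nat.le_succ j)
    have h7 : 0 ≤ (u - j) * (s (j + 1) - s j) := mul_nonneg (by linarith) (by linarith)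
    have h8 : (u - j) * (s (j + 1) - s j) ≤ s (j + 1) - s j := by
      have : (u - j) * (s (j + 1) - s j) ≤ 1 * (s (j + 1) - s j) :=
        mul_le_mul_of_nonneg_right (by linarith) (by linarith)
      linarith
    refine ⟨by linarith, by linarith, ?_⟩
    rcases hj.lt_or_eq with h9 | h9
    · have : s (j + 1) ≤ s M := hs h9
      linarith
    · have h10 := h4 h9
      rw [h5, h10, h9]
      simp
  have hclose : ∀ u ∈ Icc (0 : ℝ) M, ‖lin x u - ext y (σ u)‖ ≤ 2 * ε := by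
    intro u hu
    obtain ⟨j, hj, h2, h3, h4⟩ := hfl u hu
    obtain ⟨h5, h6, -⟩ := hσm u j hj h2 h3 h4
    have h7 := hx j hj _ ⟨h5, h6⟩
    rw [dist_eq_norm] at h7
    have h8 : ‖lin x u - x j‖ ≤ ε := by
      rw [lin_eq x j (Or.inl h2) h3, add_sub_cancel_left, norm_mul, Complex.norm_real,
        Real.norm_eq_abs, abs_of_nonneg (by linarith)]
      rcases hj.lt_or_eq with h9 | h9
      · have h10 := hstep j h9
        rw [dist_comm, dist_eq_norm] at h10
        have h11 := norm_nonneg (x (j + 1) - x j)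
        nlinarith
      · rw [h4 h9, h9]
        simp [hε.le]
    have h9 : lin x u - ext y (σ u) = (lin x u - x j) + (x j - ext y (σ u)) := by ring
    rw [h9]
    exact (norm_add_le _ _).trans (by linarith)
  have hsM0 : 0 ≤ s M := by rw [← h0]; exact hs (Nat.zero_le M)
  have hsM1 : s M ≤ 1 := by rw [← h1]; exact hs (Nat.le_succ M)
  obtain ⟨e₁, e₂, he1, he2, he12⟩ := (isInc_iff.1 he).split hsM0 hsM1
  have hσ0 : σ 0 = 0 := by
    rw [hσ]
    beta_reduce
    rw [lin_zero, Complex.ofReal_re, h0]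
  have hσM : σ M = s M := by
    rw [hσ]
    beta_reduce
    rw [lin_nat, Complex.ofReal_re]
  have hmaps : MapsTo σ (Icc 0 (M : ℝ)) (Icc 0 (s M)) := by
    intro u hu
    obtain ⟨j, hj, h2, h3, h4⟩ := hfl u hu
    obtain ⟨h5, h6, h7⟩ := hσm u j hj h2 h3 h4
    exact ⟨(by rw [← h0]; exact (hs (Nat.zero_le j)).trans h5), h7⟩
  have hA := he1.comp hσc.continuousOn hmaps hσ0 hσM
  have hB := hA.near (y' := lin x) (z' := z)
    (((continuous_ext y).comp hσc).continuousOn) (continuous_lin x).continuousOn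
    (fun u hu => by
      have h2 := hclose u hu
      have h3 := hy' (σ u)
      have h4 : (lin x u - z) - (ext y (σ u) - z) = lin x u - ext y (σ u) := by ring
      rw [h4]
      linarith)
  have hC := hB.comp (σ := fun t => t * M) (a' := 0) (b' := 1) (by fun_prop)
    (fun t ht => ⟨mul_nonneg ht.1 (Nat.cast_nonneg _), by
      have := mul_le_mul_of_nonneg_right ht.2 (Nat.cast_nonneg (α := ℝ) M)
      linarith⟩) (by simp) (by simp)
  have hD : IncOn (ext w) 0 1 z _ := hC.congr (y' := ext w) fun t ht => by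
    have h2 := ext_coe w ⟨t, ht⟩
    simp only at h2
    rw [h2, hw, poly_eq]
  have hbe := (isInc_iff.1 hb).unique zero_le_one hD
  -- the last piece
  have hxM : ‖x M - z‖ ≥ ρ - ε := by
    have h2 := hx M le_rfl (s M) ⟨le_rfl, hs (Nat.le_succ M)⟩
    rw [dist_eq_norm] at h2
    have h3 := hy' (s M)
    have h4 : ext y (s M) - z = (x M - z) - (x M - ext y (s M)) := by ring
    have h5 := norm_sub_le (x M - z) (x M - ext y (s M))
    rw [← h4] at h5
    linarith
  have hxM0 : x M - z ≠ 0 := fun h => by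
    rw [h, norm_zero] at hxM
    linarith
  have hE : IncOn (fun _ => x M) (s M) 1 z 0 :=
    ⟨fun _ => Complex.log (x M - z), continuousOn_const, fun t _ => Complex.exp_log hxM0, by simp⟩
  have hF := hE.near (y' := ext y) (z' := z) continuousOn_const (continuous_ext y).continuousOn
    (fun u hu => by
      have h2 := hx M le_rfl u ⟨hu.1, by rw [h1]; exact hu.2⟩
      rw [dist_comm, dist_eq_norm] at h2
      have h4 : (ext y u - z) - (x M - z) = ext y u - x M := by ring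
      rw [h4]
      linarith)
  have he2' := he2.unique hsM1 hF
  -- the bounds
  have hlog1 : ∀ u ∈ Icc (0 : ℝ) M,
      |(Complex.log ((lin x u - z) / (ext y (σ u) - z))).im| ≤ 4 * ε / ρ := by
    intro u hu
    have h2 : ‖(lin x u - z) / (ext y (σ u) - z) - 1‖ ≤ 2 * ε / ρ := by
      have h3 : (lin x u - z) / (ext y (σ u) - z) - 1 =
          (lin x u - ext y (σ u)) / (ext y (σ u) - z) := by
        field_simp [hy0 (σ u)]
        ring
      rw [h3, norm_div]
      exact div_le_div₀ (by linarith) (hclose u hu) hρ (hy' _)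
    have h4 : 2 * ε / ρ ≤ 1 / 2 := by rw [div_le_iff₀ hρ]; linarith
    have := abs_im_log_le h4 h2
    calc _ ≤ _ := this
      _ = 4 * ε / ρ := by ring
  have hlog2 : ∀ u ∈ Icc (s M) 1, |(Complex.log ((ext y u - z) / (x M - z))).im| ≤ 4 * ε / ρ := by
    intro u hu
    have h2 := hx M le_rfl u ⟨hu.1, by rw [h1]; exact hu.2⟩
    rw [dist_comm, dist_eq_norm] at h2
    have h5 : ‖(ext y u - z) / (x M - z) - 1‖ ≤ 2 * ε / ρ := by
      have h3 : (ext y u - z) / (x M - z) - 1 = (ext y u - x M) / (x M - z) := by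
        field_simp
        ring
      rw [h3, norm_div, div_le_div_iff₀ (by linarith) hρ]
      nlinarith [norm_nonneg (ext y u - x M)]
    have h4 : 2 * ε / ρ ≤ 1 / 2 := by rw [div_le_iff₀ hρ]; linarith
    have := abs_im_log_le h4 h5
    calc _ ≤ _ := this
      _ = 4 * ε / ρ := by ring
  have g1 := hlog1 M ⟨Nat.cast_nonneg _, le_rfl⟩
  have g2 := hlog1 0 ⟨le_rfl, Nat.cast_nonneg _⟩
  have g3 := hlog2 1 ⟨hsM1, le_rfl⟩
  have g4 := hlog2 (s M) ⟨le_rfl, hsM1⟩
  rw [hbe, ← he12, he2']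
  simp only [Complex.add_im, Complex.sub_im, Complex.zero_im, zero_add]
  rw [abs_le] at g1 g2 g3 g4 ⊢
  have e16 : 16 * ε / ρ = 4 * ε / ρ + 4 * ε / ρ + 4 * ε / ρ + 4 * ε / ρ := by ring
  rw [e16]
  constructor <;> linarith [g1.1, g1.2, g2.1, g2.2, g3.1, g3.2, g4.1, g4.2]

/-! ### The wired arc -/

/-- The wired arc, from `b` to `a`. -/
noncomputable def arcW (Φ : (ℝ × ℝ) ≃ₜ (ℝ × ℝ)) : C(unitInterval, ℂ) :=
  ⟨fun t => toC (Φ (circ (Real.pi + Real.pi * t))), by
    have h1 : Continuous fun t : ℝ => circ t := by unfold circ; fun_prop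
    have h2 : Continuous toC := by
      have : toC = fun z : ℝ × ℝ => (z.1 : ℂ) + z.2 * Complex.I := by
        funext z
        apply Complex.ext <;> simp [toC]
      rw [this]
      fun_prop
    exact h2.comp (Φ.continuous.comp (h1.comp (by fun_prop)))⟩

theorem toC_inj : Function.Injective toC := by
  intro x y h
  have h1 := congrArg Complex.re h
  have h2 := congrArg Complex.im h
  exact Prod.ext h1 h2

theorem circ_notMem (t : ℝ) : circ t ∉ {z : ℝ × ℝ | z.1 ^ 2 + z.2 ^ 2 < 1} := by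
  simp only [mem_ofPred_eq, circ, Real.cos_sq_add_sin_sq, lt_irrefl, not_false_eq_true]

theorem bdry_ne {Φ : (ℝ × ℝ) ≃ₜ (ℝ × ℝ)} {z : ℂ} (hz : z ∈ toC '' dom Φ) (t : ℝ) :
    toC (Φ (circ t)) ≠ z := by
  obtain ⟨u, ⟨v, hv, rfl⟩, rfl⟩ := hz
  intro h
  have h1 := Φ.injective (toC_inj h)
  rw [← h1] at hv
  exact circ_notMem t hv

theorem arcW_ne {Φ : (ℝ × ℝ) ≃ₜ (ℝ × ℝ)} {z : ℂ} (hz : z ∈ toC '' dom Φ) (t : unitInterval) :
    arcW Φ t ≠ z := bdry_ne hz _

theorem md_arcW_pos {Φ : (ℝ × ℝ) ≃ₜ (ℝ × ℝ)} {z : ℂ} (hz : z ∈ toC '' dom Φ) :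
    0 < md (arcW Φ) z := lt_md.2 fun t => dist_pos.2 (arcW_ne hz t)

theorem arcW_zero (Φ : (ℝ × ℝ) ≃ₜ (ℝ × ℝ)) : arcW Φ 0 = toC (Φ (circ Real.pi)) := by
  simp [arcW]

theorem arcW_one (Φ : (ℝ × ℝ) ≃ₜ (ℝ × ℝ)) : arcW Φ 1 = toC (Φ (circ 0)) := by
  simp only [arcW, ContinuousMap.coe_mk, Icc.coe_one, mul_one]
  have : circ (Real.pi + Real.pi) = circ 0 := by
    unfold circ
    rw [← two_mul, Real.cos_two_pi, Real.sin_two_pi, Real.cos_zero, Real.sin_zero]
  rw [this]

/-- The polygonal wired arc. -/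
noncomputable def polW (δ : ℝ) {n : ℕ} (p : ZMod n → ℤ × ℤ) (k : ℕ) : C(unitInterval, ℂ) :=
  ⟨fun t => poly (fun j => (δ : ℂ) * pt (p ((k + j : ℕ) : ZMod n))) (n - 1 - k) t, by
    have h := (continuous_lin (fun j => (δ : ℂ) * pt (p ((k + j : ℕ) : ZMod n)))).comp
      (continuous_subtype_val.mul (continuous_const (y := ((n - 1 - k : ℕ) : ℝ))) :
        Continuous fun t : unitInterval => (t : ℝ) * ((n - 1 - k : ℕ) : ℝ))
    exact h⟩

theorem dist_pt_succ {n : ℕ} {p : ZMod n → ℤ × ℤ} (hp : IsPolygon p) (δ : ℝ) (i : ZMod n) :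
    dist ((δ : ℂ) * pt (p i)) ((δ : ℂ) * pt (p (i + 1))) = |δ| := by
  obtain ⟨r, hr⟩ := hp.2.2 i
  rw [hr, dist_eq_norm, ← mul_sub, norm_mul, Complex.norm_real, Real.norm_eq_abs]
  have : ‖pt (p i) - pt (p i + dir r)‖ = 1 := by
    have e : pt (p i) - pt (p i + dir r) = -pt (dir r) := by
      unfold pt
      apply Complex.ext <;> simp
    rw [e, norm_neg]
    rcases H192.dir_cases r with h | h | h | h <;> rw [h] <;> unfold pt
    · have : (⟨((1 : ℤ) : ℝ), ((0 : ℤ) : ℝ)⟩ : ℂ) = 1 := by apply Complex.ext <;> simp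
      rw [this, norm_one]
    · have : (⟨((0 : ℤ) : ℝ), ((1 : ℤ) : ℝ)⟩ : ℂ) = Complex.I := by apply Complex.ext <;> simp
      rw [this, Complex.norm_I]
    · have : (⟨((-1 : ℤ) : ℝ), ((0 : ℤ) : ℝ)⟩ : ℂ) = -1 := by apply Complex.ext <;> simp
      rw [this, norm_neg, norm_one]
    · have : (⟨((0 : ℤ) : ℝ), ((-1 : ℤ) : ℝ)⟩ : ℂ) = -Complex.I := by apply Complex.ext <;> simp
      rw [this, norm_neg, Complex.norm_I]
  rw [this, mul_one]

/-- **The polygonal wired arc is close to the wired arc.** -/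
theorem polW_near {Φ : (ℝ × ℝ) ≃ₜ (ℝ × ℝ)} {δ : ℕ → ℝ} {N k : ℕ → ℕ}
    {p : ∀ n, ZMod (N n) → ℤ × ℤ} {S : ℕ → Finset (ℤ × ℤ)} (hA : Approx Φ δ N k p S) {z : ℂ}
    (hz : z ∈ toC '' dom Φ) {ε : ℝ} (hε : 0 < ε) :
    ∀ᶠ n in atTop, md (arcW Φ) z - ε ≤ md (polW (δ n) (p n) (k n)) z ∧
      ∀ b, IsInc (polW (δ n) (p n) (k n)) z b → |b.im - (incv (arcW Φ) z).im| ≤ ε := by
  obtain ⟨hA1, hA2, hA3⟩ := hA
  set ρ := md (arcW Φ) z with hρ
  have hρ0 : 0 < ρ := md_arcW_pos hz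
  set ε' := min (ρ / 8) (min (ε / 2) (ε * ρ / 16)) with hε'
  have hε0 : 0 < ε' := by rw [hε']; positivity
  have e1 : 8 * ε' ≤ ρ := by
    have := min_le_left (ρ / 8) (min (ε / 2) (ε * ρ / 16))
    linarith
  have e2 : 2 * ε' ≤ ε := by
    have := (min_le_right (ρ / 8) (min (ε / 2) (ε * ρ / 16))).trans (min_le_left _ _)
    linarith
  have e3 : 16 * ε' / ρ ≤ ε := by
    rw [div_le_iff₀ hρ0]
    have := (min_le_right (ρ / 8) (min (ε / 2) (ε * ρ / 16))).trans (min_le_right _ _)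
    linarith
  filter_upwards [hA3 ε' hε0, hA2.eventually (gt_mem_nhds hε0)] with n hn hδn
  obtain ⟨hδ0, hk0, hkN, hpol, hE⟩ := hA1 n
  obtain ⟨s, hsm, hs0, hsk, hsN, hcl⟩ := hn
  have hpi := Real.pi_pos
  -- the rescaled angles
  set s' : ℕ → ℝ := fun j => (s (k n + j) - Real.pi) / Real.pi with hs'
  have hM : k n + (N n - 1 - k n) + 1 = N n := by omega
  have h1 : s' (N n - 1 - k n + 1) = 1 := by
    rw [hs']
    beta_reduce
    rw [← add_assoc, hM, hsN]
    field_simp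
    ring
  have h0 : s' 0 = 0 := by
    rw [hs']
    beta_reduce
    rw [add_zero, hsk, sub_self, zero_div]
  have hmono : Monotone s' := fun i j hij => by
    rw [hs']
    beta_reduce
    have := hsm (Nat.add_le_add_left hij (k n))
    exact div_le_div_of_nonneg_right (by linarith) hpi.le
  have hx : ∀ j ≤ N n - 1 - k n, ∀ t ∈ Icc (s' j) (s' (j + 1)),
      dist (((δ n : ℂ)) * pt (p n ((k n + j : ℕ) : ZMod (N n)))) (ext (arcW Φ) t) < ε' := by
    intro j hj t ht
    have ht1 : t ∈ Icc (0 : ℝ) 1 := by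
      constructor
      · rw [← h0]
        exact (hmono (Nat.zero_le j)).trans ht.1
      · rw [← h1]
        exact ht.2.trans (hmono (by omega))
    have h2 : ext (arcW Φ) t = toC (Φ (circ (Real.pi + Real.pi * t))) := by
      have := ext_coe (arcW Φ) ⟨t, ht1⟩
      simp only at this
      rw [this]
      rfl
    rw [h2]
    have h3 := hcl (k n + j) (by omega) (Real.pi + Real.pi * t) (by
      constructor
      · have := ht.1
        rw [hs'] at this
        beta_reduce at this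
        rw [div_le_iff₀ hpi] at this
        linarith
      · have := ht.2
        rw [hs'] at this
        beta_reduce at this
        rw [le_div_iff₀ hpi] at this
        rw [show k n + j + 1 = k n + (j + 1) by ring]
        linarith)
    exact h3
  have hstep : ∀ j < N n - 1 - k n,
      dist (((δ n : ℂ)) * pt (p n ((k n + j : ℕ) : ZMod (N n))))
        (((δ n : ℂ)) * pt (p n ((k n + (j + 1) : ℕ) : ZMod (N n)))) ≤ ε' := by
    intro j _
    have h2 := dist_pt_succ hpol (δ n) ((k n + j : ℕ) : ZMod (N n))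
    have h3 : ((k n + (j + 1) : ℕ) : ZMod (N n)) = ((k n + j : ℕ) : ZMod (N n)) + 1 := by
      push_cast
      ring
    rw [h3, h2, abs_of_pos hδ0]
    exact le_of_lt hδn
  constructor
  · rw [le_md]
    intro t
    set M := N n - 1 - k n with hMd
    set x : ℕ → ℂ := fun j => ((δ n : ℂ)) * pt (p n ((k n + j : ℕ) : ZMod (N n))) with hxd
    have hu0 : 0 ≤ (t : ℝ) * M := mul_nonneg t.2.1 (Nat.cast_nonneg _)
    have hu1 : (t : ℝ) * M ≤ M := by
      have := mul_le_mul_of_nonneg_right t.2.2 (Nat.cast_nonneg (α := ℝ) M)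
      linarith
    have h2 : polW (δ n) (p n) (k n) t = lin x ((t : ℝ) * M) := rfl
    have h3 : (⌊(t : ℝ) * M⌋₊ : ℝ) ≤ (t : ℝ) * M := Nat.floor_le hu0
    have h4 : ⌊(t : ℝ) * M⌋₊ ≤ M := by exact_mod_cast h3.trans hu1
    set j := ⌊(t : ℝ) * M⌋₊ with hj
    have h5 := Nat.lt_floor_add_one ((t : ℝ) * M)
    rw [← hj] at h5
    have h6 : ‖lin x ((t : ℝ) * M) - x j‖ ≤ ε' := by
      rw [lin_eq x j (Or.inl h3) h5.le, add_sub_cancel_left, norm_mul, Complex.norm_real,
        Real.norm_eq_abs, abs_of_nonneg (by linarith)]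
      rcases h4.lt_or_eq with h9 | h9
      · have h10 := hstep j h9
        rw [dist_comm, dist_eq_norm] at h10
        have h11 := norm_nonneg (x (j + 1) - x j)
        rw [hxd] at h11 ⊢
        nlinarith
      · have : (t : ℝ) * M - j = 0 := by rw [h9] at h3 ⊢; linarith
        rw [this, zero_mul]
        exact hε0.le
    have h7 := hx j h4 (s' j) ⟨le_rfl, hmono (Nat.le_succ j)⟩
    have h8 : ρ ≤ dist (ext (arcW Φ) (s' j)) z := md_le _ _ _
    rw [h2]
    rw [← dist_eq_norm] at h6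
    have h9 := dist_triangle (ext (arcW Φ) (s' j)) (x j) z
    have h10 := dist_triangle (x j) (lin x ((t : ℝ) * M)) z
    rw [dist_comm (x j) (lin x ((t : ℝ) * M))] at h10
    rw [dist_comm] at h7
    have h7' : dist (ext (arcW Φ) (s' j)) (x j) < ε' := h7
    linarith
  · intro b hb
    have hinc := isInc_incv (arcW_ne hz)
    refine (inc_poly_near hρ0 hε0 e1 hmono h0 h1 hx hstep (fun t => md_le _ _ t)
      (fun t => rfl) hb hinc).trans e3

end Vale.Agent.P167.H397.Q
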