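import Vale.Agent.P167.H397.Q.Port2

/-!
# P167, general `q`, Stage II: convergence of the probabilities of `L` along one approximation
-/

set_option autoImplicit false
set_option linter.unusedVariables false
set_option linter.unusedSectionVars false

open MeasureTheory Filter Topology Set

namespace Vale.Agent.P167.H397.Q

open Vale.Agent.P167.E6 Vale.Agent.P167.E2
open Vale.Agent.P153.R2.Final (dom circ toC IsUniformizer)
open Vale.Agent.P167.QE (meanW wq wq_pos)

/-! ### Means -/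

section

variable {S : Finset (ℤ × ℤ)} {w : Finset (Sym2 (ℤ × ℤ)) → ℝ}

theorem meanW_mono (hw : ∀ A, 0 < w A) {F F' : Finset (Sym2 (ℤ × ℤ)) → ℝ}
    (h : ∀ A ⊆ edges S, F A ≤ F' A) : meanW S w F ≤ meanW S w F' := by
  unfold meanW
  refine div_le_div_of_nonneg_right (Finset.sum_le_sum fun A hA => ?_)
    (Finset.sum_nonneg fun A _ => (hw A).le)
  exact mul_le_mul_of_nonneg_left (h A (Finset.mem_powerset.1 hA)) (hw A).le

theorem meanW_sub (F F' : Finset (Sym2 (ℤ × ℤ)) → ℝ) :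
    meanW S w F - meanW S w F' = meanW S w (fun A => F A - F' A) := by
  unfold meanW
  rw [← sub_div, ← Finset.sum_sub_distrib]
  congr 1
  refine Finset.sum_congr rfl fun A _ => ?_
  ring

theorem meanW_const (hw : ∀ A, 0 < w A) (a : ℝ) : meanW S w (fun _ => a) = a := by
  unfold meanW
  rw [← Finset.sum_mul, mul_comm, mul_div_assoc, div_self, mul_one]
  exact (Finset.sum_pos (fun A _ => hw A) ⟨∅, Finset.empty_mem_powerset _⟩).ne'

theorem meanW_congr {F F' : Finset (Sym2 (ℤ × ℤ)) → ℝ} (h : ∀ A ⊆ edges S, F A = F' A) :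
    meanW S w F = meanW S w F' := by
  unfold meanW
  congr 1
  refine Finset.sum_congr rfl fun A hA => ?_
  rw [h A (Finset.mem_powerset.1 hA)]

theorem abs_meanW_sub_le (hw : ∀ A, 0 < w A) {F F' B : Finset (Sym2 (ℤ × ℤ)) → ℝ}
    (h : ∀ A ⊆ edges S, |F A - F' A| ≤ B A) : |meanW S w F - meanW S w F'| ≤ meanW S w B := by
  rw [meanW_sub, abs_le]
  have h1 : meanW S w (fun A => F A - F' A) ≤ meanW S w B :=
    meanW_mono hw fun A hA => (abs_le.1 (h A hA)).2
  have h2 : meanW S w (fun A => -B A) ≤ meanW S w (fun A => F A - F' A) :=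
    meanW_mono hw fun A hA => (abs_le.1 (h A hA)).1
  have h3 : meanW S w (fun A => -B A) = -meanW S w B := by
    unfold meanW
    rw [← neg_div, ← Finset.sum_neg_distrib]
    congr 1
    refine Finset.sum_congr rfl fun A _ => ?_
    ring
  rw [h3] at h2
  exact ⟨h2, h1⟩

end

theorem PL_eq {q : ℝ} {n : ℕ} (p : ZMod n → ℤ × ℤ) (k : ℕ) (S : Finset (ℤ × ℤ)) (f : ℤ × ℤ) :
    PL q p k S f = meanW S (wq q n p k S) fun A =>
      (LZ (H192.ro (p (-1))) (H192.rf f)).indicator 1 (H192.cfg (wiredOpen p k A)) := rfl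

theorem PL_nonneg {q : ℝ} (hq : 0 < q) {n : ℕ} (p : ZMod n → ℤ × ℤ) (k : ℕ)
    (S : Finset (ℤ × ℤ)) (f : ℤ × ℤ) : 0 ≤ PL q p k S f := by
  rw [PL_eq, ← meanW_const (S := S) (w := wq q n p k S) (fun A => wq_pos hq n p k S A) 0]
  exact meanW_mono (fun A => wq_pos hq n p k S A) fun A _ =>
    indicator_nonneg (fun _ _ => zero_le_one) _

theorem PL_le_one {q : ℝ} (hq : 0 < q) {n : ℕ} (p : ZMod n → ℤ × ℤ) (k : ℕ)
    (S : Finset (ℤ × ℤ)) (f : ℤ × ℤ) : PL q p k S f ≤ 1 := by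
  rw [PL_eq, ← meanW_const (S := S) (w := wq q n p k S) (fun A => wq_pos hq n p k S A) 1]
  exact meanW_mono (fun A => wq_pos hq n p k S A) fun A _ =>
    indicator_le_self' (fun _ _ => zero_le_one) _

/-! ### The limit functional -/

/-- The total increment of the argument of the curve `c` and the wired arc. -/
noncomputable def tot (Φ : (ℝ × ℝ) ≃ₜ (ℝ × ℝ)) (z : ℂ) (c : C(unitInterval, ℂ)) : ℝ :=
  (incv c z).im + (incv (arcW Φ) z).im

open Classical in
/-- The limit functional. -/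
noncomputable def F0 (Φ : (ℝ × ℝ) ≃ₜ (ℝ × ℝ)) (z : ℂ) (c : C(unitInterval, ℂ)) : ℝ :=
  if 0 < md c z ∧ Real.pi ≤ tot Φ z c then 1 else 0

/-- The total increment of a closed curve is a multiple of `2 π`. -/
theorem tot_int {Φ : (ℝ × ℝ) ≃ₜ (ℝ × ℝ)} {z : ℂ} (hz : z ∈ toC '' dom Φ)
    {c : C(unitInterval, ℂ)} (hc : 0 < md c z) (h0 : c 0 = toC (Φ (circ 0)))
    (h1 : c 1 = toC (Φ (circ Real.pi))) : ∃ m : ℤ, tot Φ z c = m * (2 * Real.pi) := by
  obtain ⟨θ, hθ1, hθ2⟩ := isInc_incv (ne_of_md hc)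
  obtain ⟨η, hη1, hη2⟩ := isInc_incv (arcW_ne hz)
  have ha : c 0 - z ≠ 0 := sub_ne_zero.2 (ne_of_md hc 0)
  have hb : c 1 - z ≠ 0 := sub_ne_zero.2 (ne_of_md hc 1)
  have h : Complex.exp (incv c z + incv (arcW Φ) z) = 1 := by
    rw [← hθ2, ← hη2, Complex.exp_add, Complex.exp_sub, Complex.exp_sub, hθ1, hθ1, hη1, hη1,
      arcW_zero, arcW_one, ← h0, ← h1]
    field_simp
  obtain ⟨m, hm⟩ := Complex.exp_eq_one_iff.1 h
  refine ⟨m, ?_⟩
  have h2 := congrArg Complex.im hm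
  rw [Complex.add_im] at h2
  unfold tot
  rw [h2]
  simp

/-- **The key inclusion.** -/
theorem ind_key (hind : S_ind) {Φ : (ℝ × ℝ) ≃ₜ (ℝ × ℝ)} {δ : ℕ → ℝ} {N k : ℕ → ℕ}
    {p : ∀ n, ZMod (N n) → ℤ × ℤ} {S : ℕ → Finset (ℤ × ℤ)} (hA : Approx Φ δ N k p S) {z : ℂ}
    (hz : z ∈ toC '' dom Φ) {f : ℕ → ℤ × ℤ}
    (hf : Tendsto (fun n => (δ n : ℂ) * pt (f n)) atTop (𝓝 z)) {ρ : ℝ} (hρ : 0 < ρ) :
    ∀ᶠ n in atTop, ∀ A ⊆ edges (S n), ∀ c, IsInterface (p n) (k n) (δ n) A c → ρ ≤ md c z →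
      (H192.cfg (wiredOpen (p n) (k n) A) ∈ LZ (H192.ro (p n (-1))) (H192.rf (f n)) ∧
        |tot Φ z c - 2 * Real.pi| ≤ 2) ∨
      (H192.cfg (wiredOpen (p n) (k n) A) ∉ LZ (H192.ro (p n (-1))) (H192.rf (f n)) ∧
        |tot Φ z c| ≤ 2) := by
  set m := md (arcW Φ) z with hm
  have hm0 : 0 < m := md_arcW_pos hz
  set r := min (ρ / 2) (m / 4) with hr
  have hr0 : 0 < r := by rw [hr]; positivity
  have hr1 : 2 * r ≤ ρ := by
    have := min_le_left (ρ / 2) (m / 4)
    linarith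
  have hr2 : 4 * r ≤ m := by
    have := min_le_right (ρ / 2) (m / 4)
    linarith
  have hε : 0 < min 1 (m / 2) := by positivity
  filter_upwards [polW_near hA hz hε, (hA.2.1).eventually (gt_mem_nhds
    (show 0 < r / 100 by positivity)), hf.eventually (Metric.ball_mem_nhds z hr0)]
    with n h1 h2 h3 A hAS c hc hcz
  obtain ⟨hδ, hk0, hkN, hpol, hE⟩ := hA.1 n
  obtain ⟨h4, h5⟩ := h1
  have h6 : ∀ t, 2 * r ≤ dist (polW (δ n) (p n) (k n) t) z := by
    rw [← le_md]
    have := min_le_right (1 : ℝ) (m / 2)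
    linarith
  have h7 : ∀ t, 2 * r ≤ dist (c t) z := by
    rw [← le_md]
    linarith
  have h8 : ∀ t, polW (δ n) (p n) (k n) t ≠ z := fun t h => by
    have := h6 t
    rw [h, dist_self] at this
    linarith
  have h9 : ∀ t, c t ≠ z := fun t h => by
    have := h7 t
    rw [h, dist_self] at this
    linarith
  have hb := isInc_incv h8
  have hb' := (h5 _ hb).trans (min_le_left _ _)
  have h2' : 100 * δ n ≤ r := by
    have : δ n < r / 100 := h2
    linarith
  have key := hind (N n) (p n) (k n) (S n) (δ n) r A c (polW (δ n) (p n) (k n)) z (incv c z)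
    (incv (polW (δ n) (p n) (k n)) z) (f n) hδ h2' hk0 hkN hpol hE hAS hc
    (fun t => rfl) (le_of_lt h3) h7 h6 (isInc_incv h9) hb
  rw [Complex.add_im] at key
  unfold tot
  rcases key with ⟨h10, h11⟩ | ⟨h10, h11⟩
  · refine Or.inl ⟨h10, ?_⟩
    rw [abs_le] at hb' h11 ⊢
    constructor <;> linarith [hb'.1, hb'.2, h11.1, h11.2]
  · refine Or.inr ⟨h10, ?_⟩
    rw [abs_le] at hb' h11 ⊢
    constructor <;> linarith [hb'.1, hb'.2, h11.1, h11.2]

/-- The function which vanishes near `0` and `2 π`. -/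
noncomputable def gap (x : ℝ) : ℝ := min 1 (max 0 (min (|x| - 2) (|x - 2 * Real.pi| - 2)))

theorem continuous_gap : Continuous gap := by unfold gap; fun_prop

theorem gap_nonneg (x : ℝ) : 0 ≤ gap x := le_min zero_le_one (le_max_left _ _)

theorem gap_le_one (x : ℝ) : gap x ≤ 1 := min_le_left _ _

theorem gap_zero {x : ℝ} (h : |x| ≤ 2 ∨ |x - 2 * Real.pi| ≤ 2) : gap x = 0 := by
  unfold gap
  have h1 : min (|x| - 2) (|x - 2 * Real.pi| - 2) ≤ 0 := by
    rcases h with h | h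
    · exact (min_le_left _ _).trans (by linarith)
    · exact (min_le_right _ _).trans (by linarith)
  rw [max_eq_left h1, min_eq_right zero_le_one]

theorem of_gap_zero {x : ℝ} (h : gap x = 0) : |x| ≤ 2 ∨ |x - 2 * Real.pi| ≤ 2 := by
  by_contra hcon
  push Not at hcon
  have h1 : 0 < min (|x| - 2) (|x - 2 * Real.pi| - 2) :=
    lt_min (by linarith [hcon.1]) (by linarith [hcon.2])
  unfold gap at h
  rw [max_eq_right h1.le] at h
  have := lt_min zero_lt_one h1
  linarith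

section Main

variable {q : ℝ} {Φ : (ℝ × ℝ) ≃ₜ (ℝ × ℝ)} {δ : ℕ → ℝ} {N k : ℕ → ℕ}
  {p : ∀ n, ZMod (N n) → ℤ × ℤ} {S : ℕ → Finset (ℤ × ℤ)} {Ω : Type} [MeasurableSpace Ω]
  {P : Measure Ω} [IsProbabilityMeasure P] {G : Ω → C(unitInterval, ℂ)} {z : ℂ}

/-- The curves converge in law to `G`. -/
structure CLim (q : ℝ) (Φ : (ℝ × ℝ) ≃ₜ (ℝ × ℝ)) (δ : ℕ → ℝ) (N k : ℕ → ℕ)
    (p : ∀ n, ZMod (N n) → ℤ × ℤ) (S : ℕ → Finset (ℤ × ℤ)) {Ω : Type} [MeasurableSpace Ω]
    (P : Measure Ω) (G : Ω → C(unitInterval, ℂ)) : Prop where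
  appr : Approx Φ δ N k p S
  g0 : ∀ᵐ ω ∂P, G ω 0 = toC (Φ (circ 0))
  g1 : ∀ᵐ ω ∂P, G ω 1 = toC (Φ (circ Real.pi))
  meas : ∀ F : C(unitInterval, ℂ) → ℝ, Continuous F → AEMeasurable (fun ω => F (G ω)) P
  ex : ∀ n, ∀ A ⊆ edges (S n), ∃ c, IsInterface (p n) (k n) (δ n) A c
  conv : ∀ c : ∀ n, Finset (Sym2 (ℤ × ℤ)) → C(unitInterval, ℂ),
    (∀ n, ∀ A ⊆ edges (S n), IsInterface (p n) (k n) (δ n) A (c n A)) →
    ∀ F : C(unitInterval, ℂ) → ℝ, Continuous F → (∃ M, ∀ x, |F x| ≤ M) →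
      (∀ (x : C(unitInterval, ℂ)) (σ : C(unitInterval, unitInterval)), StrictMono σ →
        Function.Surjective σ → F (x.comp σ) = F x) →
      Tendsto (fun n => meanW (S n) (wq q _ (p n) (k n) (S n)) fun A => F (c n A)) atTop
        (𝓝 (∫ ω, F (G ω) ∂P))

theorem CLim.curves (H : CLim q Φ δ N k p S P G) : ∃ c : ∀ n, Finset (Sym2 (ℤ × ℤ)) →
    C(unitInterval, ℂ), ∀ n, ∀ A ⊆ edges (S n), IsInterface (p n) (k n) (δ n) A (c n A) := by
  have h : ∀ n (A : Finset (Sym2 (ℤ × ℤ))), ∃ c : C(unitInterval, ℂ), A ⊆ edges (S n) →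
      IsInterface (p n) (k n) (δ n) A c := by
    intro n A
    by_cases h : A ⊆ edges (S n)
    · obtain ⟨c, hc⟩ := H.ex n A h
      exact ⟨c, fun _ => hc⟩
    · exact ⟨0, fun h' => absurd h' h⟩
  choose c hc using h
  exact ⟨c, hc⟩

theorem integrable_of_bdd {F : C(unitInterval, ℂ) → ℝ} (H : CLim q Φ δ N k p S P G)
    (hF : Continuous F) {M : ℝ} (hM : ∀ x, |F x| ≤ M) : Integrable (fun ω => F (G ω)) P :=
  Integrable.of_bound (H.meas F hF).aestronglyMeasurable M
    (Eventually.of_forall fun ω => by rw [Real.norm_eq_abs]; exact hM _)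

theorem continuous_cutmd (ρ : ℝ) (z : ℂ) :
    Continuous fun c : C(unitInterval, ℂ) => 1 - cut ρ (md c z) :=
  continuous_const.sub ((continuous_cut ρ).comp (continuous_md z))

theorem abs_cutmd_le (ρ : ℝ) (z : ℂ) (c : C(unitInterval, ℂ)) : |1 - cut ρ (md c z)| ≤ 1 := by
  have h1 := cut_nonneg ρ (md c z)
  have h2 := cut_le_one ρ (md c z)
  rw [abs_le]
  constructor <;> linarith

/-- The limit curve does not come near `z`. -/
theorem CLim.near (H : CLim q Φ δ N k p S P G) (hq : 0 < q) (hnear : S_near q)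
    (hz : z ∈ toC '' dom Φ) {ε : ℝ} (hε : 0 < ε) : ∃ ρ : ℝ, 0 < ρ ∧
    ∫ ω, (1 - cut ρ (md (G ω) z)) ∂P ≤ ε ∧
    ∀ c : ∀ n, Finset (Sym2 (ℤ × ℤ)) → C(unitInterval, ℂ),
      (∀ n, ∀ A ⊆ edges (S n), IsInterface (p n) (k n) (δ n) A (c n A)) →
      ∀ᶠ n in atTop, meanW (S n) (wq q _ (p n) (k n) (S n))
        ({A | md (c n A) z < ρ}.indicator 1) ≤ ε := by
  obtain ⟨ρ, hρ, h⟩ := hnear Φ δ N k p S H.appr z hz ε hε
  have h2 : ∀ c : ∀ n, Finset (Sym2 (ℤ × ℤ)) → C(unitInterval, ℂ),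
      (∀ n, ∀ A ⊆ edges (S n), IsInterface (p n) (k n) (δ n) A (c n A)) →
      ∀ᶠ n in atTop, meanW (S n) (wq q _ (p n) (k n) (S n))
        ({A | md (c n A) z < ρ}.indicator 1) ≤ ε := by
    intro c hc
    filter_upwards [h c hc] with n hn
    refine le_trans (le_of_eq ?_) hn
    have : {A : Finset (Sym2 (ℤ × ℤ)) | md (c n A) z < ρ} = {A | ∃ t, dist (c n A t) z < ρ} := by
      ext A
      simp only [mem_ofPred_eq]
      constructor
      · intro h
        obtain ⟨t, ht⟩ := exists_md (c n A) z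
        exact ⟨t, by rw [← ht]; exact h⟩
      · rintro ⟨t, ht⟩
        exact (md_le _ _ t).trans_lt ht
    rw [this]
    rfl
  refine ⟨ρ, hρ, ?_, h2⟩
  obtain ⟨c, hc⟩ := H.curves
  refine le_of_tendsto (H.conv c hc (fun x => 1 - cut ρ (md x z)) (continuous_cutmd ρ z)
    ⟨1, abs_cutmd_le ρ z⟩ (fun x σ _ hσ => by rw [md_comp σ hσ])) ?_
  filter_upwards [h2 c hc] with n hn
  refine le_trans (meanW_mono (fun A => wq_pos hq _ _ _ _ A) fun A _ => ?_) hn
  by_cases h3 : md (c n A) z < ρ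
  · rw [indicator_of_mem (show A ∈ {A | md (c n A) z < ρ} from h3), Pi.one_apply]
    have := cut_nonneg ρ (md (c n A) z)
    linarith
  · rw [indicator_of_notMem (show A ∉ {A | md (c n A) z < ρ} from h3),
      cut_one hρ (not_lt.1 h3), sub_self]

/-- The limit curve avoids `z`, and the total increment is `0` or `2 π`. -/
theorem CLim.vals (H : CLim q Φ δ N k p S P G) (hq : 0 < q) (hind : S_ind) (hnear : S_near q)
    (hz : z ∈ toC '' dom Φ) :
    ∀ᵐ ω ∂P, 0 < md (G ω) z ∧ (tot Φ z (G ω) = 0 ∨ tot Φ z (G ω) = 2 * Real.pi) := by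
  -- avoiding
  have h1 : ∀ᵐ ω ∂P, 0 < md (G ω) z := by
    have hm : AEMeasurable (fun ω => md (G ω) z) P := H.meas _ (continuous_md z)
    have h2 : ∀ ε : ℝ, 0 < ε → P.real {ω | ¬ 0 < md (G ω) z} ≤ ε := by
      intro ε hε
      obtain ⟨ρ, hρ, h3, -⟩ := H.near hq hnear hz hε
      refine le_trans ?_ h3
      have hns : NullMeasurableSet {ω | ¬ 0 < md (G ω) z} P := by
        have : {ω | ¬ 0 < md (G ω) z} = (fun ω => md (G ω) z) ⁻¹' (Iic 0) := by
          ext ω
          simp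
        rw [this]
        exact hm.nullMeasurable measurableSet_Iic
      have e : P.real {ω | ¬ 0 < md (G ω) z} =
          ∫ ω, ({ω | ¬ 0 < md (G ω) z}.indicator (fun _ => (1 : ℝ)) ω) ∂P := by
        rw [integral_indicator₀ hns, integral_const, smul_eq_mul, mul_one,
          measureReal_restrict_apply_univ]
      rw [e]
      refine integral_mono_ae ((integrable_const (1 : ℝ)).indicator₀ hns)
        (integrable_of_bdd H (continuous_cutmd ρ z) (abs_cutmd_le ρ z))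
        (Eventually.of_forall fun ω => ?_)
      beta_reduce
      by_cases h4 : ω ∈ {ω | ¬ 0 < md (G ω) z}
      · rw [indicator_of_mem h4]
        have h5 : md (G ω) z ≤ 0 := not_lt.1 h4
        rw [cut_zero hρ (by linarith)]
        simp
      · rw [indicator_of_notMem h4]
        have := cut_le_one ρ (md (G ω) z)
        linarith
    have h3 : P.real {ω | ¬ 0 < md (G ω) z} = 0 :=
      le_antisymm (le_of_forall_pos_le_add fun ε hε => by simpa using h2 ε hε)
        measureReal_nonneg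
    rw [ae_iff]
    rwa [measureReal_eq_zero_iff] at h3
  -- the values
  have h2 : ∀ m : ℕ, ∀ᵐ ω ∂P, Fg (1 / ((m : ℝ) + 1)) gap (incv (arcW Φ) z).im z (G ω) = 0 := by
    intro m
    set ρ : ℝ := 1 / ((m : ℝ) + 1) with hρd
    have hρ : 0 < ρ := by positivity
    obtain ⟨c, hc⟩ := H.curves
    have hb : ∀ x, |Fg ρ gap (incv (arcW Φ) z).im z x| ≤ 1 := abs_Fg_le (fun x => by
      rw [abs_of_nonneg (gap_nonneg x)]
      exact gap_le_one x) _ _
    have hcont := continuous_Fg hρ continuous_gap (incv (arcW Φ) z).im z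
    have h3 := H.conv c hc _ hcont ⟨1, hb⟩ (fun x σ hs hσ => Fg_comp _ _ _ _ x σ hs hσ)
    have h4 : ∫ ω, Fg ρ gap (incv (arcW Φ) z).im z (G ω) ∂P = 0 := by
      refine tendsto_nhds_unique h3 ?_
      refine tendsto_const_nhds.congr' ?_
      have hf : Tendsto (fun n => (δ n : ℂ) * pt (⌊z.re / δ n⌋, ⌊z.im / δ n⌋)) atTop (𝓝 z) := by
        rw [tendsto_iff_norm_sub_tendsto_zero]
        refine squeeze_zero (fun _ => norm_nonneg _) (g := fun n => 2 * δ n) (fun n => ?_)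
          (by simpa using H.appr.2.1.const_mul 2)
        have hδ := (H.appr.1 n).1
        have e1 := Int.floor_le (z.re / δ n)
        have e2 := Int.lt_floor_add_one (z.re / δ n)
        have e3 := Int.floor_le (z.im / δ n)
        have e4 := Int.lt_floor_add_one (z.im / δ n)
        rw [le_div_iff₀ hδ] at e1 e3
        rw [div_lt_iff₀ hδ] at e2 e4
        refine (Complex.norm_le_abs_re_add_abs_im _).trans ?_
        have r1 : ((δ n : ℂ) * pt (⌊z.re / δ n⌋, ⌊z.im / δ n⌋) - z).re =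
            δ n * ⌊z.re / δ n⌋ - z.re := by
          simp [pt, Complex.mul_re]
        have r2 : ((δ n : ℂ) * pt (⌊z.re / δ n⌋, ⌊z.im / δ n⌋) - z).im =
            δ n * ⌊z.im / δ n⌋ - z.im := by
          simp [pt, Complex.mul_im]
        rw [r1, r2]
        have r3 : |δ n * ⌊z.re / δ n⌋ - z.re| ≤ δ n := by
          rw [abs_le]
          constructor <;> nlinarith
        have r4 : |δ n * ⌊z.im / δ n⌋ - z.im| ≤ δ n := by
          rw [abs_le]
          constructor <;> nlinarith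
        linarith
      filter_upwards [ind_key hind H.appr hz hf (show 0 < ρ / 2 by positivity)] with n hn
      symm
      rw [← meanW_const (S := S n) (w := wq q _ (p n) (k n) (S n))
        (fun A => wq_pos hq _ _ _ _ A) 0]
      refine meanW_congr fun A hA => ?_
      unfold Fg
      by_cases h5 : ρ / 2 ≤ md (c n A) z
      · have h6 := hn A hA (c n A) (hc n A hA) h5
        unfold tot at h6
        rw [gap_zero (by rcases h6 with h6 | h6; exact Or.inr h6.2; exact Or.inl h6.2), mul_zero]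
      · rw [cut_zero hρ (le_of_lt (not_le.1 h5)), zero_mul]
    have h5 := (integral_eq_zero_iff_of_nonneg (fun ω => mul_nonneg (cut_nonneg _ _)
      (gap_nonneg _)) (integrable_of_bdd H hcont hb)).1 h4
    filter_upwards [h5] with ω hω
    exact hω
  filter_upwards [h1, ae_all_iff.2 h2, H.g0, H.g1] with ω w1 w2 w3 w4
  refine ⟨w1, ?_⟩
  obtain ⟨m, hm⟩ := exists_nat_gt (1 / md (G ω) z)
  have h3 : 1 / ((m : ℝ) + 1) ≤ md (G ω) z := by
    rw [div_lt_iff₀ w1] at hm
    rw [div_le_iff₀ (by positivity)]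
    nlinarith
  have h4 := w2 m
  unfold Fg at h4
  rw [cut_one (by positivity) h3, one_mul] at h4
  have h5 := of_gap_zero h4
  obtain ⟨j, hj⟩ := tot_int hz w1 w3 w4
  change |tot Φ z (G ω)| ≤ 2 ∨ |tot Φ z (G ω) - 2 * Real.pi| ≤ 2 at h5
  have hpi := Real.pi_gt_three
  rcases h5 with h5 | h5
  · left
    rw [hj] at h5 ⊢
    have h6 : |(j : ℝ)| < 1 := by
      rw [abs_mul, abs_of_pos (by positivity : (0 : ℝ) < 2 * Real.pi)] at h5
      by_contra hcon
      push Not at hcon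
      nlinarith
    have h7 : j = 0 := by
      have : |j| < 1 := by exact_mod_cast h6
      exact Int.abs_lt_one_iff.1 this
    rw [h7]
    simp
  · right
    rw [hj] at h5 ⊢
    have h6 : |((j - 1 : ℤ) : ℝ)| < 1 := by
      have e : (j : ℝ) * (2 * Real.pi) - 2 * Real.pi = ((j - 1 : ℤ) : ℝ) * (2 * Real.pi) := by
        push_cast
        ring
      rw [e, abs_mul, abs_of_pos (by positivity : (0 : ℝ) < 2 * Real.pi)] at h5
      by_contra hcon
      push Not at hcon
      nlinarith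
    have h7 : j - 1 = 0 := by
      have : |j - 1| < 1 := by exact_mod_cast h6
      exact Int.abs_lt_one_iff.1 this
    have h8 : j = 1 := by omega
    rw [h8]
    simp

end Main

end Vale.Agent.P167.H397.Q
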