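import Vale.Agent.P167.H397.Q.Port3

/-!
# P167, general `q`, Stage II: convergence of the probabilities of `L` along one approximation
-/

set_option autoImplicit false
set_option linter.unusedVariables false
set_option linter.unusedSectionVars false

open MeasureTheory Filter Topology Set

namespace Vale.Agent.P167.H397.Q

open Vale.Agent.P167.E6 Vale.Agent.P167.E2
open Vale.Agent.P153.R2.Final (dom circ toC IsUniformizer)
open Vale.Agent.P167.QE (meanW wq wq_pos)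

section Main

variable {q : ℝ} {Φ : (ℝ × ℝ) ≃ₜ (ℝ × ℝ)} {δ : ℕ → ℝ} {N k : ℕ → ℕ}
  {p : ∀ n, ZMod (N n) → ℤ × ℤ} {S : ℕ → Finset (ℤ × ℤ)} {Ω : Type} [MeasurableSpace Ω]
  {P : Measure Ω} [IsProbabilityMeasure P] {G : Ω → C(unitInterval, ℂ)} {z : ℂ}

theorem F0_nonneg (Φ : (ℝ × ℝ) ≃ₜ (ℝ × ℝ)) (z : ℂ) (c : C(unitInterval, ℂ)) : 0 ≤ F0 Φ z c := by
  unfold F0
  split_ifs <;> norm_num

theorem F0_le_one (Φ : (ℝ × ℝ) ≃ₜ (ℝ × ℝ)) (z : ℂ) (c : C(unitInterval, ℂ)) : F0 Φ z c ≤ 1 := by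
  unfold F0
  split_ifs <;> norm_num

theorem pi_bds : (3 : ℝ) < Real.pi ∧ Real.pi < 4 := ⟨Real.pi_gt_three, Real.pi_lt_four⟩

/-- The step functional is the limit functional up to the cutoff. -/
theorem Fg_stp {ρ : ℝ} {c : C(unitInterval, ℂ)} (h0 : 0 < md c z)
    (h : tot Φ z c = 0 ∨ tot Φ z c = 2 * Real.pi) :
    Fg ρ stp (incv (arcW Φ) z).im z c = cut ρ (md c z) * F0 Φ z c := by
  obtain ⟨h3, h4⟩ := pi_bds
  unfold Fg
  congr 1
  change stp (tot Φ z c) = _
  unfold F0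
  rcases h with h | h
  · rw [h, stp_zero (by linarith), if_neg (by rintro ⟨-, h5⟩; linarith)]
  · rw [h, stp_one (by linarith), if_pos ⟨h0, by linarith⟩]

theorem CLim.F0_aem (H : CLim q Φ δ N k p S P G) (hq : 0 < q) (hind : S_ind) (hnear : S_near q)
    (hz : z ∈ toC '' dom Φ) : AEMeasurable (fun ω => F0 Φ z (G ω)) P := by
  have hρ : ∀ m : ℕ, (0 : ℝ) < 1 / ((m : ℝ) + 1) := fun m => by positivity
  refine aemeasurable_of_tendsto_metrizable_ae atTop
    (f := fun (m : ℕ) ω => Fg (1 / ((m : ℝ) + 1)) stp (incv (arcW Φ) z).im z (G ω))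
    (fun m => H.meas _ (continuous_Fg (hρ m) continuous_stp _ z)) ?_
  filter_upwards [H.vals hq hind hnear hz] with ω ⟨h1, h2⟩
  refine tendsto_const_nhds.congr' ?_
  obtain ⟨m, hm⟩ := exists_nat_gt (1 / md (G ω) z)
  filter_upwards [eventually_ge_atTop m] with j hj
  have h3 : 1 / ((j : ℝ) + 1) ≤ md (G ω) z := by
    have hj' : (m : ℝ) ≤ j := by exact_mod_cast hj
    rw [div_lt_iff₀ h1] at hm
    rw [div_le_iff₀ (by positivity)]
    nlinarith
  rw [Fg_stp h1 h2, cut_one (hρ j) h3, one_mul]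

/-- **The probabilities of `L` converge.** -/
theorem CLim.tendsto (H : CLim q Φ δ N k p S P G) (hq : 0 < q) (hind : S_ind) (hnear : S_near q)
    (hz : z ∈ toC '' dom Φ) {f : ℕ → ℤ × ℤ}
    (hf : Tendsto (fun n => (δ n : ℂ) * pt (f n)) atTop (𝓝 z)) :
    Tendsto (fun n => PL q (p n) (k n) (S n) (f n)) atTop (𝓝 (∫ ω, F0 Φ z (G ω) ∂P)) := by
  obtain ⟨c, hc⟩ := H.curves
  obtain ⟨hp3, hp4⟩ := pi_bds
  have hb : ∀ ρ x, |Fg ρ stp (incv (arcW Φ) z).im z x| ≤ 1 := fun ρ x =>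
    abs_Fg_le abs_stp_le _ _ _
  have hF0 : Integrable (fun ω => F0 Φ z (G ω)) P :=
    Integrable.of_bound (H.F0_aem hq hind hnear hz).aestronglyMeasurable 1
      (Eventually.of_forall fun ω => by
        rw [Real.norm_eq_abs, abs_of_nonneg (F0_nonneg _ _ _)]
        exact F0_le_one _ _ _)
  rw [Metric.tendsto_atTop']
  intro ε hε
  obtain ⟨ρ, hρ, h1, h2⟩ := H.near hq hnear hz (show 0 < ε / 4 by positivity)
  have hcont := continuous_Fg hρ continuous_stp (incv (arcW Φ) z).im z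
  have h3 := H.conv c hc _ hcont ⟨1, hb ρ⟩ (fun x σ hs hσ => Fg_comp _ _ _ _ x σ hs hσ)
  have h4 : |∫ ω, Fg ρ stp (incv (arcW Φ) z).im z (G ω) ∂P - ∫ ω, F0 Φ z (G ω) ∂P| ≤ ε / 4 := by
    rw [← integral_sub (integrable_of_bdd H hcont (hb ρ)) hF0]
    refine (abs_integral_le_integral_abs).trans ((integral_mono_ae ?_
      (integrable_of_bdd H (continuous_cutmd ρ z) (abs_cutmd_le ρ z)) ?_).trans h1)
    · exact ((integrable_of_bdd H hcont (hb ρ)).sub hF0).abs
    · filter_upwards [H.vals hq hind hnear hz] with ω ⟨w1, w2⟩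
      rw [Fg_stp w1 w2]
      have e1 := F0_nonneg Φ z (G ω)
      have e2 := F0_le_one Φ z (G ω)
      have e3 := cut_nonneg ρ (md (G ω) z)
      have e4 := cut_le_one ρ (md (G ω) z)
      have e5 : cut ρ (md (G ω) z) * F0 Φ z (G ω) - F0 Φ z (G ω) =
          -((1 - cut ρ (md (G ω) z)) * F0 Φ z (G ω)) := by ring
      rw [e5, abs_neg, abs_of_nonneg (mul_nonneg (by linarith) e1)]
      nlinarith
  have h5 : ∀ᶠ n in atTop, |PL q (p n) (k n) (S n) (f n) -
      meanW (S n) (wq q _ (p n) (k n) (S n)) (fun A =>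
        Fg ρ stp (incv (arcW Φ) z).im z (c n A))| ≤ ε / 4 := by
    filter_upwards [ind_key hind H.appr hz hf hρ, h2 c hc] with n h6 h7
    rw [PL_eq]
    refine (abs_meanW_sub_le (fun A => wq_pos hq _ _ _ _ A) (B := {A | md (c n A) z < ρ}.indicator 1)
      fun A hA => ?_).trans h7
    by_cases h8 : md (c n A) z < ρ
    · rw [indicator_of_mem (show A ∈ {A | md (c n A) z < ρ} from h8), Pi.one_apply]
      have e1 : 0 ≤ (LZ (H192.ro (p n (-1))) (H192.rf (f n))).indicator (1 : Cfg → ℝ)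
          (H192.cfg (wiredOpen (p n) (k n) A)) := indicator_nonneg (fun _ _ => zero_le_one) _
      have e2 : (LZ (H192.ro (p n (-1))) (H192.rf (f n))).indicator (1 : Cfg → ℝ)
          (H192.cfg (wiredOpen (p n) (k n) A)) ≤ 1 :=
        indicator_le_self' (fun _ _ => zero_le_one) _
      have e3 : 0 ≤ Fg ρ stp (incv (arcW Φ) z).im z (c n A) :=
        mul_nonneg (cut_nonneg _ _) (stp_nonneg _)
      have e4 : Fg ρ stp (incv (arcW Φ) z).im z (c n A) ≤ 1 := (abs_le.1 (hb ρ (c n A))).2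
      rw [abs_le]
      constructor <;> linarith
    · have h9 := not_lt.1 h8
      rw [indicator_of_notMem (show A ∉ {A | md (c n A) z < ρ} from h8)]
      have e : (LZ (H192.ro (p n (-1))) (H192.rf (f n))).indicator (1 : Cfg → ℝ)
          (H192.cfg (wiredOpen (p n) (k n) A)) = Fg ρ stp (incv (arcW Φ) z).im z (c n A) := by
        unfold Fg
        rw [cut_one hρ h9, one_mul]
        change _ = stp (tot Φ z (c n A))
        rcases h6 A hA (c n A) (hc n A hA) h9 with ⟨h10, h11⟩ | ⟨h10, h11⟩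
        · rw [indicator_of_mem h10, stp_one (by linarith [(abs_le.1 h11).1])]
          rfl
        · rw [indicator_of_notMem h10, stp_zero (by linarith [(abs_le.1 h11).2])]
      rw [e, sub_self, abs_zero]
  have h6 : ∀ᶠ n in atTop, |meanW (S n) (wq q _ (p n) (k n) (S n)) (fun A =>
      Fg ρ stp (incv (arcW Φ) z).im z (c n A)) -
      ∫ ω, Fg ρ stp (incv (arcW Φ) z).im z (G ω) ∂P| < ε / 4 := by
    have := h3.eventually (Metric.ball_mem_nhds _ (show 0 < ε / 4 by positivity))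
    filter_upwards [this] with n hn
    rwa [← Real.dist_eq]
  obtain ⟨n₀, hn₀⟩ := eventually_atTop.1 (h5.and h6)
  refine ⟨n₀, fun n hn => ?_⟩
  obtain ⟨h7, h8⟩ := hn₀ n (le_of_lt hn)
  rw [Real.dist_eq]
  rw [abs_lt] at h8 ⊢
  rw [abs_le] at h4 h7
  constructor <;> linarith [h4.1, h4.2, h7.1, h7.2, h8.1, h8.2]

end Main

end Vale.Agent.P167.H397.Q
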