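import Vale.Agent.P167.H397.Q.Port4
import Vale.Agent.P167.H327.OriG
import Vale.Agent.P153.R2.L1.HMax
import Vale.Agent.P167.SLE.Main6

/-!
# P167, general `q`, Stage II: the limit does not depend on the domain
-/

set_option autoImplicit false
set_option linter.unusedVariables false
set_option linter.unusedSectionVars false

open MeasureTheory Filter Topology Set

namespace Vale.Agent.P167.H397.Q

open Vale.Agent.P167.E6 Vale.Agent.P167.E2
open Vale.Agent.P153.R2.Final (dom circ toC IsUniformizer)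
open Vale.Agent.P153.R2.DET (Uni HC)
open Vale.Agent.P167.SLE (uni_of_uniformizer exists_transfer bq)
open Vale.Agent.P167.H327 (ph ph_eq ph_cont)
open P153.TOP

/-! ### The closed domain -/

/-- The closed Jordan domain. -/
def cl (Φ : (ℝ × ℝ) ≃ₜ (ℝ × ℝ)) : Set ℂ :=
  (fun u : ℂ => toC (Φ (u.re, u.im))) '' Metric.closedBall 0 1

theorem continuous_toC : Continuous toC := by
  have : toC = fun z : ℝ × ℝ => (z.1 : ℂ) + z.2 * Complex.I := by
    funext z
    apply Complex.ext <;> simp [toC]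
  rw [this]
  fun_prop

theorem continuous_par (Φ : (ℝ × ℝ) ≃ₜ (ℝ × ℝ)) :
    Continuous fun u : ℂ => toC (Φ (u.re, u.im)) :=
  continuous_toC.comp (Φ.continuous.comp (Complex.continuous_re.prodMk Complex.continuous_im))

theorem inj_par (Φ : (ℝ × ℝ) ≃ₜ (ℝ × ℝ)) :
    Function.Injective fun u : ℂ => toC (Φ (u.re, u.im)) := by
  intro u v h
  have h1 := Φ.injective (toC_inj h)
  exact Complex.ext (congrArg Prod.fst h1) (congrArg Prod.snd h1)

theorem isCompact_cl (Φ : (ℝ × ℝ) ≃ₜ (ℝ × ℝ)) : IsCompact (cl Φ) :=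
  (isCompact_closedBall _ _).image (continuous_par Φ)

theorem hasLogOn_cl (Φ : (ℝ × ℝ) ≃ₜ (ℝ × ℝ)) : HasLogOn (cl Φ) :=
  (hasLogOn_of_convex (convex_closedBall (0 : ℂ) 1)).image_of_isCompact
    (isCompact_closedBall _ _) (continuous_par Φ).continuousOn (inj_par Φ).injOn

theorem dom_sub_cl (Φ : (ℝ × ℝ) ≃ₜ (ℝ × ℝ)) : toC '' dom Φ ⊆ cl Φ := by
  rintro _ ⟨_, ⟨v, hv, rfl⟩, rfl⟩
  refine ⟨⟨v.1, v.2⟩, ?_, rfl⟩
  rw [mem_closedBall_zero_iff]
  have hv' : v.1 ^ 2 + v.2 ^ 2 < 1 := hv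
  have h1 : ‖(⟨v.1, v.2⟩ : ℂ)‖ ^ 2 ≤ 1 := by
    rw [← Complex.normSq_eq_norm_sq, Complex.normSq_mk]
    nlinarith
  have h2 := norm_nonneg (⟨v.1, v.2⟩ : ℂ)
  nlinarith

theorem circ_mem_cl (Φ : (ℝ × ℝ) ≃ₜ (ℝ × ℝ)) (t : ℝ) : toC (Φ (circ t)) ∈ cl Φ := by
  refine ⟨⟨Real.cos t, Real.sin t⟩, ?_, rfl⟩
  rw [mem_closedBall_zero_iff]
  have h1 : ‖(⟨Real.cos t, Real.sin t⟩ : ℂ)‖ ^ 2 ≤ 1 := by
    rw [← Complex.normSq_eq_norm_sq, Complex.normSq_mk]
    nlinarith [Real.sin_sq_add_cos_sq t]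
  have h2 := norm_nonneg (⟨Real.cos t, Real.sin t⟩ : ℂ)
  nlinarith

section

variable {Φ Φ' : (ℝ × ℝ) ≃ₜ (ℝ × ℝ)} {ψ ψ' : ℂ → ℂ}

theorem uni_of (hψ : IsUniformizer Φ ψ) : Uni ψ (bq Φ) :=
  uni_of_uniformizer Vale.Agent.P153.R2.R1.i_uinj hψ

theorem psi_mem (hψ : IsUniformizer Φ ψ) {w : ℂ} (hw : 0 < w.im) : ψ w ∈ toC '' dom Φ := by
  rw [← hψ.2.2.1]
  exact ⟨w, hw, rfl⟩

theorem HC_sub_cl (hψ : IsUniformizer Φ ψ) {x : ℂ} (hx : x ∈ HC) : ψ x ∈ cl Φ := by
  have hx' : 0 ≤ x.im := hx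
  have h1 : Tendsto (fun n : ℕ => x + ((1 / ((n : ℝ) + 1) : ℝ) : ℂ) * Complex.I) atTop (𝓝 x) := by
    have h2 : Tendsto (fun n : ℕ => ((1 / ((n : ℝ) + 1) : ℝ) : ℂ)) atTop (𝓝 ((0 : ℝ) : ℂ)) :=
      (Complex.continuous_ofReal.tendsto _).comp tendsto_one_div_add_atTop_nhds_zero_nat
    have h3 := (tendsto_const_nhds (x := x)).add (h2.mul_const Complex.I)
    simpa using h3
  have hpos : ∀ n : ℕ, 0 < (x + ((1 / ((n : ℝ) + 1) : ℝ) : ℂ) * Complex.I).im := by
    intro n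
    have : 0 < 1 / ((n : ℝ) + 1) := by positivity
    simp only [Complex.add_im, Complex.mul_im, Complex.ofReal_re, Complex.I_im, mul_one,
      Complex.ofReal_im, Complex.I_re, mul_zero, add_zero]
    linarith
  have h4 : Tendsto (fun n : ℕ => ψ (x + ((1 / ((n : ℝ) + 1) : ℝ) : ℂ) * Complex.I)) atTop
      (𝓝 (ψ x)) :=
    ((uni_of hψ).cont x hx).tendsto.comp (tendsto_nhdsWithin_iff.2
      ⟨h1, Eventually.of_forall fun n => le_of_lt (α := ℝ) (hpos n)⟩)
  exact (isCompact_cl Φ).isClosed.mem_of_tendsto h4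
    (Eventually.of_forall fun n => dom_sub_cl Φ (psi_mem hψ (hpos n)))

theorem cl_sub (hψ : IsUniformizer Φ ψ) {y : ℂ} (hy : y ∈ cl Φ) (hb : y ≠ bq Φ) :
    ∃ x ∈ HC, ψ x = y := by
  obtain ⟨u, hu, rfl⟩ := hy
  rw [mem_closedBall_zero_iff] at hu
  have h1 : Tendsto (fun n : ℕ => ((1 - 1 / ((n : ℝ) + 1) : ℝ) : ℂ) * u) atTop (𝓝 u) := by
    have h2 : Tendsto (fun n : ℕ => ((1 - 1 / ((n : ℝ) + 1) : ℝ) : ℂ)) atTop
        (𝓝 ((1 - 0 : ℝ) : ℂ)) :=
      (Complex.continuous_ofReal.tendsto _).comp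
        (tendsto_const_nhds.sub tendsto_one_div_add_atTop_nhds_zero_nat)
    have h3 := h2.mul_const u
    simpa using h3
  have hin : ∀ n : ℕ, toC (Φ ((((1 - 1 / ((n : ℝ) + 1) : ℝ) : ℂ) * u).re,
      (((1 - 1 / ((n : ℝ) + 1) : ℝ) : ℂ) * u).im)) ∈ ψ '' {z | 0 < z.im} := by
    intro n
    rw [hψ.2.2.1]
    refine ⟨_, ⟨_, ?_, rfl⟩, rfl⟩
    have e1 : (((1 - 1 / ((n : ℝ) + 1) : ℝ) : ℂ) * u).re ^ 2 +
        (((1 - 1 / ((n : ℝ) + 1) : ℝ) : ℂ) * u).im ^ 2 =
        (1 - 1 / ((n : ℝ) + 1)) ^ 2 * ‖u‖ ^ 2 := by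
      rw [← Complex.normSq_eq_norm_sq, Complex.normSq_apply, Complex.re_ofReal_mul,
        Complex.im_ofReal_mul]
      ring
    simp only [mem_ofPred_eq]
    rw [e1]
    have e2 : 0 < 1 / ((n : ℝ) + 1) := by positivity
    have e3 : 1 / ((n : ℝ) + 1) ≤ 1 := by
      rw [div_le_one (by positivity)]
      have : (0 : ℝ) ≤ n := Nat.cast_nonneg _
      linarith
    have e4 : ‖u‖ ^ 2 ≤ 1 := by
      have := norm_nonneg u
      nlinarith
    have e5 : (1 - 1 / ((n : ℝ) + 1)) ^ 2 < 1 := by nlinarith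
    have e6 := sq_nonneg ‖u‖
    nlinarith
  choose x hx hx' using hin
  have h4 : Tendsto (fun n => ψ (x n)) atTop (𝓝 (toC (Φ (u.re, u.im)))) := by
    refine (((continuous_par Φ).tendsto u).comp h1).congr fun n => ?_
    simp only [Function.comp_apply]
    exact (hx' n).symm
  exact (uni_of hψ).exists (Eventually.of_forall fun n => le_of_lt (α := ℝ) (hx n)) hb h4

/-! ### The logarithm of the difference quotient -/

theorem deriv_ne (hψ : IsUniformizer Φ ψ) {w : ℂ} (hw : 0 < w.im) : deriv ψ w ≠ 0 :=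
  Vale.Agent.P153.R2.L1.injOn_deriv_ne_zero
    (isOpen_lt continuous_const Complex.continuous_im) hψ.1 hψ.2.1 hw

theorem diffAt (hψ : IsUniformizer Φ ψ) {w : ℂ} (hw : 0 < w.im) : DifferentiableAt ℂ ψ w :=
  hψ.1.differentiableAt ((isOpen_lt continuous_const Complex.continuous_im).mem_nhds hw)

/-- **The transfer of increments.** -/
theorem exists_trans (hψ : IsUniformizer Φ ψ) (hψ' : IsUniformizer Φ' ψ') :
    ∃ f : C(ℂ, ℂ), f (bq Φ) = bq Φ' ∧ (∀ x ∈ HC, f (ψ x) = ψ' x) ∧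
      ∀ w : ℂ, 0 < w.im → ∃ Λ : ℂ → ℂ, ContinuousOn Λ (cl Φ) ∧
        ∀ y ∈ cl Φ, y ≠ ψ w → Complex.exp (Λ y) * (y - ψ w) = f y - ψ' w := by
  have hU := uni_of hψ
  have hU' := uni_of hψ'
  obtain ⟨f, hfb, hf⟩ := exists_transfer hU hU'
  refine ⟨f, hfb, hf, fun w hw => ?_⟩
  classical
  have hwH : w ∈ HC := le_of_lt (α := ℝ) hw
  set u : ℂ → ℂ := fun y => if y = ψ w then deriv ψ' w / deriv ψ w else
    (f y - ψ' w) / (y - ψ w) with hu
  -- near interior and boundary points different from `b`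
  have hu' : ∀ x ∈ HC, u (ψ x) = dslope ψ' w x / dslope ψ w x := by
    intro x hx
    rw [hu]
    beta_reduce
    by_cases hxw : x = w
    · rw [hxw, if_pos rfl, dslope_same, dslope_same]
    · have h1 : ψ x ≠ ψ w := fun h => hxw (hU.inj hx hwH h)
      rw [if_neg h1, hf x hx, dslope_of_ne _ hxw, dslope_of_ne _ hxw, slope_def_field,
        slope_def_field]
      have h2 : x - w ≠ 0 := sub_ne_zero.2 hxw
      have h3 : ψ x - ψ w ≠ 0 := sub_ne_zero.2 h1
      field_simp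
  have hne : ∀ y ∈ cl Φ, u y ≠ 0 := by
    intro y hy
    rw [hu]
    beta_reduce
    by_cases h1 : y = ψ w
    · rw [if_pos h1]
      exact div_ne_zero (deriv_ne hψ' hw) (deriv_ne hψ hw)
    · rw [if_neg h1]
      refine div_ne_zero ?_ (sub_ne_zero.2 h1)
      rw [sub_ne_zero]
      by_cases hb : y = bq Φ
      · rw [hb, hfb]
        exact fun h => hU'.ne w hwH h.symm
      · obtain ⟨x, hx, rfl⟩ := cl_sub hψ hy hb
        rw [hf x hx]
        exact fun h => h1 (by rw [hU'.inj hx hwH h])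
  have hcont : ContinuousOn u (cl Φ) := by
    intro y hy
    by_cases h1 : y = ψ w
    · -- at the point itself
      have hyn : y ≠ bq Φ := by rw [h1]; exact hU.ne w hwH
      have h2 : ContinuousWithinAt (fun y => dslope ψ' w (ph ψ y) / dslope ψ w (ph ψ y))
          (ψ '' HC) y := by
        have h3 : ContinuousWithinAt (ph ψ) (ψ '' HC) y := by
          rw [h1]
          exact ph_cont hU _ ⟨w, hwH, rfl⟩
        have h4 : ph ψ y = w := by rw [h1]; exact ph_eq hU hwH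
        have h5 : ContinuousAt (dslope ψ' w) w := continuousAt_dslope_same.2 (diffAt hψ' hw)
        have h6 : ContinuousAt (dslope ψ w) w := continuousAt_dslope_same.2 (diffAt hψ hw)
        have h7 : dslope ψ w w ≠ 0 := by
          rw [dslope_same]
          exact deriv_ne hψ hw
        have h8 : ContinuousAt (fun x => dslope ψ' w x / dslope ψ w x) (ph ψ y) := by
          rw [h4]
          exact h5.div h6 h7
        exact h8.comp_continuousWithinAt h3
      have h3 : ContinuousWithinAt u (ψ '' HC) y := by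
        refine h2.congr (fun v hv => ?_) ?_
        · obtain ⟨x, hx, rfl⟩ := hv
          rw [hu' x hx, ph_eq hU hx]
        · rw [h1, hu' w hwH, ph_eq hU hwH]
      have h4 : cl Φ ∩ {v | v ≠ bq Φ} ⊆ ψ '' HC := fun v hv => cl_sub hψ hv.1 hv.2
      exact (h3.mono h4).mono_of_mem_nhdsWithin
        (inter_mem_nhdsWithin _ (isOpen_ne.mem_nhds hyn))
    · have h2 : ContinuousAt (fun y => (f y - ψ' w) / (y - ψ w)) y :=
        (f.continuous.continuousAt.sub continuousAt_const).div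
          (continuousAt_id.sub continuousAt_const) (sub_ne_zero.2 h1)
      refine (h2.congr ?_).continuousWithinAt
      filter_upwards [isOpen_ne.mem_nhds h1] with v hv
      rw [hu]
      beta_reduce
      rw [if_neg hv]
  obtain ⟨Λ, hΛ, hΛ'⟩ := hasLogOn_cl Φ u hcont hne
  refine ⟨Λ, hΛ, fun y hy h1 => ?_⟩
  rw [hΛ' y hy, hu]
  beta_reduce
  rw [if_neg h1, div_mul_cancel₀ _ (sub_ne_zero.2 h1)]

end

end Vale.Agent.P167.H397.Q
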