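import Vale.Agent.P167.H397.Q.Tra2

/-!
# P167, general `q`, Stage II: the limit of the probabilities of `L` (`S_pas`)
-/

set_option autoImplicit false
set_option linter.unusedVariables false
set_option linter.unusedSectionVars false

open MeasureTheory ProbabilityTheory Filter Topology Set

namespace Vale.Agent.P167.H397.Q

open Vale.Agent.P167.E6 Vale.Agent.P167.E2
open Vale.Agent.P153.R2.Final (dom circ toC IsUniformizer)
open Vale.Agent.P153.R2.DET (Uni HC)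
open Vale.Agent.P167.SLE (uni_of_uniformizer exists_transfer bq)
open Vale.Agent.P167.QE (meanW wq wq_pos Cls CurveLimitOn)
open P153.TOP

section

variable {q : ℝ} {Φ Φ' : (ℝ × ℝ) ≃ₜ (ℝ × ℝ)} {ψ ψ' : ℂ → ℂ} {δ δ' : ℕ → ℝ} {N k N' k' : ℕ → ℕ}
  {p : ∀ n, ZMod (N n) → ℤ × ℤ} {S : ℕ → Finset (ℤ × ℤ)} {p' : ∀ n, ZMod (N' n) → ℤ × ℤ}
  {S' : ℕ → Finset (ℤ × ℤ)} {Ω : Type} [MeasurableSpace Ω]
  {P : Measure Ω} [IsProbabilityMeasure P] {G G' : Ω → C(unitInterval, ℂ)} {γ : Ω → ℝ → ℂ}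

theorem CLim.int_F0_nonneg (z : ℂ) : 0 ≤ ∫ ω, F0 Φ z (G ω) ∂P :=
  integral_nonneg fun ω => F0_nonneg _ _ _

theorem CLim.free (H : CLim q Φ δ N k p S P G) (hq : 0 < q) (hind : S_ind) (hnear : S_near q)
    (hψ : IsUniformizer Φ ψ) (hfree : S_free q) :
    ∃ w : ℂ, 0 < w.im ∧ ∫ ω, F0 Φ (ψ w) (G ω) ∂P ≤ 1 / 3 := by
  have hpi := Real.pi_pos
  obtain ⟨ρ, hρ, h1⟩ := hfree Φ δ N k p S H.appr (Real.pi / 2) ⟨by positivity, by linarith⟩
    (1 / 3) (by norm_num)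
  obtain ⟨w, hw, h2⟩ := exists_near hψ (Real.pi / 2) hρ
  refine ⟨w, hw, ?_⟩
  have hf := tendsto_face (fun n => (H.appr.1 n).1) H.appr.2.1 (ψ w)
  have h3 := h1 _ (hf.eventually (Metric.isOpen_ball.mem_nhds
    (show ψ w ∈ Metric.ball (toC (Φ (circ (Real.pi / 2)))) ρ from h2)))
  exact le_of_tendsto (H.tendsto hq hind hnear (psi_mem hψ hw) hf) h3

theorem CLim.wired (H : CLim q Φ δ N k p S P G) (hq : 0 < q) (hind : S_ind) (hnear : S_near q)
    (hψ : IsUniformizer Φ ψ) (hwired : S_wired q) :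
    ∃ w : ℂ, 0 < w.im ∧ 2 / 3 ≤ ∫ ω, F0 Φ (ψ w) (G ω) ∂P := by
  have hpi := Real.pi_pos
  obtain ⟨ρ, hρ, h1⟩ := hwired Φ δ N k p S H.appr (3 * Real.pi / 2)
    ⟨by linarith, by linarith⟩ (1 / 3) (by norm_num)
  obtain ⟨w, hw, h2⟩ := exists_near hψ (3 * Real.pi / 2) hρ
  refine ⟨w, hw, ?_⟩
  have hf := tendsto_face (fun n => (H.appr.1 n).1) H.appr.2.1 (ψ w)
  have h3 := h1 _ ((hf.eventually (Metric.isOpen_ball.mem_nhds
    (show ψ w ∈ Metric.ball (toC (Φ (circ (3 * Real.pi / 2)))) ρ from h2))).and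
    (faces_mem H.appr (psi_mem hψ hw) hf))
  refine ge_of_tendsto (H.tendsto hq hind hnear (psi_mem hψ hw) hf) ?_
  filter_upwards [h3] with n hn
  linarith

/-- The curve `G` is the image of the trace `γ`. -/
structure Img (Φ : (ℝ × ℝ) ≃ₜ (ℝ × ℝ)) (ψ : ℂ → ℂ) {Ω : Type} [MeasurableSpace Ω]
    (P : Measure Ω) (γ : Ω → ℝ → ℂ) (G : Ω → C(unitInterval, ℂ)) : Prop where
  uni : IsUniformizer Φ ψ
  gam : ∀ᵐ ω ∂P, ∀ t : ℝ, 0 ≤ t → 0 ≤ (γ ω t).im
  gt : ∀ᵐ ω ∂P, G ω 1 = toC (Φ (circ Real.pi)) ∧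
    ∀ t : unitInterval, (t : ℝ) < 1 → G ω t = ψ (γ ω (t / (1 - t)))

theorem bq_mem_cl (Φ : (ℝ × ℝ) ≃ₜ (ℝ × ℝ)) : bq Φ ∈ cl Φ := circ_mem_cl Φ _

theorem Img.mem (I : Img Φ ψ P γ G) : ∀ᵐ ω ∂P, ∀ t, G ω t ∈ cl Φ := by
  filter_upwards [I.gam, I.gt] with ω h1 ⟨h2, h3⟩ t
  rcases t.2.2.lt_or_eq with h | h
  · rw [h3 t h]
    refine HC_sub_cl I.uni (h1 _ (div_nonneg t.2.1 (by linarith)))
  · have : t = 1 := Subtype.ext h
    rw [this, h2]
    exact circ_mem_cl Φ _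

theorem Img.trf (I : Img Φ ψ P γ G) (I' : Img Φ' ψ' P γ G') {f : C(ℂ, ℂ)}
    (T : Trf Φ Φ' ψ ψ' f) : ∀ᵐ ω ∂P, G' ω = f.comp (G ω) := by
  filter_upwards [I.gam, I.gt, I'.gt] with ω h1 ⟨h2, h3⟩ ⟨h4, h5⟩
  ext t
  rw [ContinuousMap.comp_apply]
  rcases t.2.2.lt_or_eq with h | h
  · rw [h3 t h, h5 t h, T.fx _ (h1 _ (div_nonneg t.2.1 (by linarith)))]
  · have : t = 1 := Subtype.ext h
    rw [this, h2, h4, ← bq_eq, ← bq_eq, T.fb]

/-- **Independence of the domain.** -/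
theorem indep (H : CLim q Φ δ N k p S P G) (H' : CLim q Φ' δ' N' k' p' S' P G') (hq : 0 < q)
    (hind : S_ind) (hnear : S_near q) (hfree : S_free q) (hwired : S_wired q)
    (I : Img Φ ψ P γ G) (I' : Img Φ' ψ' P γ G') {w : ℂ} (hw : 0 < w.im) :
    ∫ ω, F0 Φ (ψ w) (G ω) ∂P = ∫ ω, F0 Φ' (ψ' w) (G' ω) ∂P := by
  obtain ⟨f, T⟩ := exists_trf I.uni I'.uni
  obtain ⟨m, hm⟩ := T.dM_const
  have hpi := Real.pi_pos
  have key : ∀ v : ℂ, 0 < v.im → ∀ᵐ ω ∂P,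
      (0 < md (G ω) (ψ v) ∧ (tot Φ (ψ v) (G ω) = 0 ∨ tot Φ (ψ v) (G ω) = 2 * Real.pi)) ∧
      (0 < md (G' ω) (ψ' v) ∧ (tot Φ' (ψ' v) (G' ω) = 0 ∨ tot Φ' (ψ' v) (G' ω) = 2 * Real.pi)) ∧
      tot Φ' (ψ' v) (G' ω) = tot Φ (ψ v) (G ω) + m * (2 * Real.pi) := by
    intro v hv
    filter_upwards [H.vals hq hind hnear (psi_mem I.uni hv),
      H'.vals hq hind hnear (psi_mem I'.uni hv), I.trf I' T, I.mem, H.g0, I.gt]
      with ω h1 h2 h3 h4 h5 h6
    refine ⟨h1, h2, ?_⟩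
    rw [h3, T.tot hv h4 h1.1 h5 h6.1, hm v hv]
  rcases lt_trichotomy m 0 with h | h | h
  · -- the total increment in `Φ` is `2 π`
    exfalso
    obtain ⟨v, hv, h1⟩ := H.free hq hind hnear I.uni hfree
    have h2 : ∀ᵐ ω ∂P, F0 Φ (ψ v) (G ω) = 1 := by
      filter_upwards [key v hv] with ω ⟨⟨h3, h4⟩, ⟨_, h5⟩, h6⟩
      have hm' : (m : ℝ) ≤ -1 := by exact_mod_cast (by omega : m ≤ -1)
      have h7 : tot Φ (ψ v) (G ω) = 2 * Real.pi := by
        rcases h4 with h4 | h4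
        · exfalso
          rw [h4] at h6
          rcases h5 with h5 | h5 <;> rw [h5] at h6 <;> nlinarith
        · exact h4
      unfold F0
      rw [if_pos ⟨h3, by rw [h7]; linarith⟩]
    rw [integral_congr_ae h2] at h1
    simp at h1
    linarith
  · subst h
    refine integral_congr_ae ?_
    filter_upwards [key w hw] with ω ⟨⟨h3, h4⟩, ⟨h5, _⟩, h6⟩
    have h7 : tot Φ' (ψ' w) (G' ω) = tot Φ (ψ w) (G ω) := by
      rw [h6]
      simp
    unfold F0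
    rw [h7]
    simp only [h3, h5, true_and]
  · exfalso
    obtain ⟨v, hv, h1⟩ := H.wired hq hind hnear I.uni hwired
    have h2 : ∀ᵐ ω ∂P, F0 Φ (ψ v) (G ω) = 0 := by
      filter_upwards [key v hv] with ω ⟨⟨h3, h4⟩, ⟨_, h5⟩, h6⟩
      have hm' : (1 : ℝ) ≤ m := by exact_mod_cast (by omega : 1 ≤ m)
      have h7 : tot Φ (ψ v) (G ω) = 0 := by
        rcases h4 with h4 | h4
        · exact h4
        · exfalso
          rw [h4] at h6
          rcases h5 with h5 | h5 <;> rw [h5] at h6 <;> nlinarith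
      unfold F0
      rw [if_neg (by rintro ⟨-, h8⟩; rw [h7] at h8; linarith)]
    rw [integral_congr_ae h2] at h1
    simp at h1
    linarith

/-- The limit is continuous. -/
theorem CLim.cont (H : CLim q Φ δ N k p S P G) (hq : 0 < q) (hind : S_ind) (hnear : S_near q)
    (hψ : IsUniformizer Φ ψ) {w : ℂ} (hw : 0 < w.im) :
    ContinuousAt (fun v => ∫ ω, F0 Φ (ψ v) (G ω) ∂P) w := by
  have hU : ∀ᶠ v in 𝓝 w, 0 < v.im :=
    (isOpen_lt continuous_const Complex.continuous_im).mem_nhds hw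
  refine continuousAt_of_dominated (bound := fun _ => (1 : ℝ)) ?_ ?_ (integrable_const _) ?_
  · filter_upwards [hU] with v hv
    exact (H.F0_aem hq hind hnear (psi_mem hψ hv)).aestronglyMeasurable
  · refine Eventually.of_forall fun v => Eventually.of_forall fun ω => ?_
    rw [Real.norm_eq_abs, abs_of_nonneg (F0_nonneg _ _ _)]
    exact F0_le_one _ _ _
  · filter_upwards [H.vals hq hind hnear (psi_mem hψ hw)] with ω ⟨h1, h2⟩
    have hψc : ContinuousAt ψ w := (diffAt hψ hw).continuousAt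
    have h3 : ContinuousAt (fun v => tot Φ (ψ v) (G ω)) w := by
      have a1 : ContinuousAt (fun v => incv (G ω) (ψ v)) w :=
        ContinuousAt.comp (f := ψ) (continuousAt_incv_pt h1) hψc
      have a2 : ContinuousAt (fun v => incv (arcW Φ) (ψ v)) w :=
        ContinuousAt.comp (f := ψ) (continuousAt_incv_pt (md_arcW_pos (psi_mem hψ hw))) hψc
      exact (Complex.continuous_im.continuousAt.comp a1).add
        (Complex.continuous_im.continuousAt.comp a2)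
    have h4 : ∀ᶠ v in 𝓝 w, 0 < md (G ω) (ψ v) := by
      have : Continuous fun z => md (G ω) z := Metric.continuous_infDist_pt _
      exact (this.continuousAt.comp hψc).eventually (lt_mem_nhds h1)
    obtain ⟨hp3, hp4⟩ := pi_bds
    have h5 : ∀ᶠ v in 𝓝 w, |tot Φ (ψ v) (G ω) - tot Φ (ψ w) (G ω)| < 1 := by
      have := h3.eventually (Metric.ball_mem_nhds _ zero_lt_one)
      filter_upwards [this] with v hv
      rw [← Real.dist_eq]
      exact hv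
    have h6 : ∀ᶠ v in 𝓝 w, F0 Φ (ψ v) (G ω) = F0 Φ (ψ w) (G ω) := by
      filter_upwards [h4, h5] with v h7 h8
      unfold F0
      rw [abs_lt] at h8
      rcases h2 with h2 | h2
      · rw [if_neg (by rintro ⟨-, h9⟩; linarith [h8.2]), if_neg (by rintro ⟨-, h9⟩; linarith)]
      · rw [if_pos ⟨h7, by linarith [h8.1]⟩, if_pos ⟨h1, by linarith⟩]
    have h7 : F0 Φ (ψ w) (G ω) = F0 Φ (ψ w) (G ω) := rfl
    exact (continuousAt_const (y := F0 Φ (ψ w) (G ω))).congr (by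
      filter_upwards [h6] with v hv
      exact hv.symm)

end

/-! ### Scaling of uniformizers -/

theorem uni_scale {Φ : (ℝ × ℝ) ≃ₜ (ℝ × ℝ)} {ψ : ℂ → ℂ} (hψ : IsUniformizer Φ ψ) {r : ℝ}
    (hr : 0 < r) : IsUniformizer Φ (fun z => ψ (r * z)) := by
  obtain ⟨h1, h2, h3, h4, h5, h6⟩ := hψ
  have him : ∀ z : ℂ, ((r : ℂ) * z).im = r * z.im := fun z => Complex.im_ofReal_mul _ _
  have hr0 : (r : ℂ) ≠ 0 := Complex.ofReal_ne_zero.2 hr.ne'
  refine ⟨?_, ?_, ?_, ?_, ?_, ?_⟩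
  · refine h1.comp (by fun_prop) fun z hz => ?_
    show 0 < ((r : ℂ) * z).im
    rw [him]
    exact mul_pos hr hz
  · intro x hx y hy hxy
    have hx' : 0 < ((r : ℂ) * x).im := by rw [him]; exact mul_pos hr hx
    have hy' : 0 < ((r : ℂ) * y).im := by rw [him]; exact mul_pos hr hy
    exact mul_left_cancel₀ hr0 (h2 hx' hy' hxy)
  · rw [← h3]
    ext y
    constructor
    · rintro ⟨x, hx, rfl⟩
      exact ⟨r * x, by show 0 < ((r : ℂ) * x).im; rw [him]; exact mul_pos hr hx, rfl⟩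
    · rintro ⟨x, hx, rfl⟩
      refine ⟨((r⁻¹ : ℝ) : ℂ) * x, ?_, ?_⟩
      · show 0 < (((r⁻¹ : ℝ) : ℂ) * x).im
        rw [Complex.im_ofReal_mul]
        exact mul_pos (inv_pos.2 hr) hx
      · beta_reduce
        rw [← mul_assoc, ← Complex.ofReal_mul, mul_inv_cancel₀ hr.ne', Complex.ofReal_one, one_mul]
  · refine h4.comp (by fun_prop) fun z hz => ?_
    show 0 ≤ ((r : ℂ) * z).im
    rw [him]
    exact mul_nonneg hr.le hz
  · simp only [mul_zero]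
    exact h5
  · refine h6.comp ?_
    rw [tendsto_inf]
    constructor
    · refine Tendsto.mono_left ?_ inf_le_left
      rw [← tendsto_norm_atTop_iff_cobounded]
      have : (fun x : ℂ => ‖(r : ℂ) * x‖) = fun x => r * ‖x‖ := by
        funext x
        rw [norm_mul, Complex.norm_real, Real.norm_of_nonneg hr.le]
      rw [this]
      exact tendsto_norm_cobounded_atTop.const_mul_atTop hr
    · rw [tendsto_principal]
      have : ∀ᶠ x in Bornology.cobounded ℂ ⊓ 𝓟 {z : ℂ | 0 ≤ z.im}, x ∈ {z : ℂ | 0 ≤ z.im} :=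
        mem_inf_of_right (mem_principal_self _)
      filter_upwards [this] with x hx
      show 0 ≤ ((r : ℂ) * x).im
      rw [him]
      exact mul_nonneg hr.le hx

/-! ### The theorem -/

/-- **The output of the block S2-LZ** from its inputs. -/
theorem s_pas {K : Cls} {q : ℝ} (hq : 0 < q) (hind : S_ind) (hnear : S_near q)
    (hfree : S_free q) (hwired : S_wired q) : S_pas K q := by
  intro hcl
  obtain ⟨Ω, mΩ, P, hP, γ, hγ, hall⟩ := hcl
  have hgam : ∀ᵐ ω ∂P, (∀ t : ℝ, 0 ≤ t → 0 ≤ (γ ω t).im) ∧ γ ω 0 = 0 := by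
    obtain ⟨B, hB, hT⟩ := hγ
    filter_upwards [hT, hB.eval_zero_ae_eq_zero] with ω h2 h3
    refine ⟨h2.im_nonneg, ?_⟩
    rw [h2.start]
    simp [h3]
  by_cases hne : K.Ne
  · obtain ⟨Φ₀, δ₀, N₀, k₀, p₀, S₀, hA₀, hK₀⟩ := hne
    obtain ⟨⟨ψ₀, hψ₀⟩, hG₀⟩ := hall Φ₀
    -- the data of a member
    have hmem : ∀ (Φ : (ℝ × ℝ) ≃ₜ (ℝ × ℝ)) (ψ : ℂ → ℂ), IsUniformizer Φ ψ →
        ∃ G : Ω → C(unitInterval, ℂ), Img Φ ψ P γ G ∧
          ∀ (δ : ℕ → ℝ) (N k : ℕ → ℕ) (p : ∀ n, ZMod (N n) → ℤ × ℤ)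
            (S : ℕ → Finset (ℤ × ℤ)), Approx Φ δ N k p S → K Φ δ N k p S →
            CLim q Φ δ N k p S P G := by
      intro Φ ψ hψ
      obtain ⟨G, h1, h2, h3⟩ := (hall Φ).2 ψ hψ
      refine ⟨G, ⟨hψ, hgam.mono fun ω h => h.1, h1⟩, fun δ N k p S hA hK => ?_⟩
      obtain ⟨h4, h5⟩ := h3 δ N k p S hA
      refine ⟨hA, ?_, h1.mono fun ω h => h.1, h2, h4, h5 hK⟩
      filter_upwards [h1, hgam] with ω h6 h7
      have h8 := h6.2 0 (by simp)
      rw [h8]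
      simp only [Icc.coe_zero, zero_div, h7.2]
      exact hψ.2.2.2.2.1
    obtain ⟨G₀, I₀, hC₀⟩ := hmem Φ₀ ψ₀ hψ₀
    have H₀ := hC₀ δ₀ N₀ k₀ p₀ S₀ hA₀ hK₀
    set h : ℂ → ℝ := fun w => ∫ ω, F0 Φ₀ (ψ₀ w) (G₀ ω) ∂P with hh
    have hlim : PasLim K q h := by
      intro Φ ψ δ N k p S hψ hA hK z hz f hf
      obtain ⟨G, I, hC⟩ := hmem Φ ψ hψ
      have H := hC δ N k p S hA hK
      rw [hh]
      beta_reduce
      rw [indep H₀ H hq hind hnear hfree hwired I₀ I hz]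
      exact H.tendsto hq hind hnear (psi_mem hψ hz) hf
    refine ⟨h, ⟨?_, ?_, ?_, ?_, ?_⟩, hlim⟩
    · intro w hw
      exact (H₀.cont hq hind hnear hψ₀ hw).continuousWithinAt
    · intro z _
      exact integral_nonneg fun ω => F0_nonneg _ _ _
    · intro z hz
      have hf := tendsto_face (fun n => (H₀.appr.1 n).1) H₀.appr.2.1 (ψ₀ z)
      exact le_of_tendsto (hlim Φ₀ ψ₀ δ₀ N₀ k₀ p₀ S₀ hψ₀ hA₀ hK₀ z hz _ hf)
        (Eventually.of_forall fun n => PL_le_one hq _ _ _ _)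
    · intro r z hr hz
      have hrz : 0 < ((r : ℂ) * z).im := by
        rw [Complex.im_ofReal_mul]
        exact mul_pos hr hz
      have hf := tendsto_face (fun n => (H₀.appr.1 n).1) H₀.appr.2.1 (ψ₀ (r * z))
      exact tendsto_nhds_unique (hlim Φ₀ ψ₀ δ₀ N₀ k₀ p₀ S₀ hψ₀ hA₀ hK₀ (r * z) hrz _ hf)
        (hlim Φ₀ _ δ₀ N₀ k₀ p₀ S₀ (uni_scale hψ₀ hr) hA₀ hK₀ z hz _ hf)
    · obtain ⟨w, hw, h1⟩ := H₀.free hq hind hnear hψ₀ hfree
      obtain ⟨w', hw', h2⟩ := H₀.wired hq hind hnear hψ₀ hwired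
      refine ⟨w, w', hw, hw', fun h3 => ?_⟩
      have h4 : h w ≤ 1 / 3 := h1
      have h5 : 2 / 3 ≤ h w' := h2
      rw [h3] at h4
      linarith
  · -- no member
    have hpi := Real.pi_pos
    refine ⟨fun z => z.arg / Real.pi, ⟨?_, ?_, ?_, ?_, ?_⟩, ?_⟩
    · intro w hw
      have : w ∈ Complex.slitPlane := Or.inr (ne_of_gt hw)
      exact ((Complex.continuousAt_arg this).div_const _).continuousWithinAt
    · intro z hz
      exact div_nonneg (Complex.arg_nonneg_iff.2 hz.le) hpi.le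
    · intro z _
      rw [div_le_one hpi]
      exact Complex.arg_le_pi z
    · intro r z hr _

      rw [Complex.arg_real_mul _ hr]
    · refine ⟨Complex.I, Complex.I + 1, by simp, by simp, fun h3 => ?_⟩
      beta_reduce at h3
      rw [div_left_inj' hpi.ne', Complex.arg_I] at h3
      have h4 : |(Complex.I + 1).arg| < Real.pi / 2 :=
        Complex.abs_arg_lt_pi_div_two_iff.2 (Or.inl (by simp))
      rw [← h3, abs_of_pos (by positivity)] at h4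
      linarith
    · intro Φ ψ δ N k p S hψ hA hK
      exact absurd ⟨Φ, δ, N, k, p, S, hA, hK⟩ hne

end Vale.Agent.P167.H397.Q
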