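import Vale.Agent.P167.H397.Q.S2Mono

/-!
# P167, general `q`, Stage II: two starting points in one class
-/

set_option autoImplicit false

open MeasureTheory Filter Topology Set

namespace Vale.Agent.P167.H397.Q

open Vale.Agent.P167.E6 Vale.Agent.P167.E2
open Vale.Agent.P153.R2.Final (dom circ toC IsUniformizer)
open Vale.Agent.P167.QE (Cls)

/-- The class is a condition on the polygons seen from the target `p (k)`. -/
def InvB (K : Cls) : Prop := ∀ (Φ Φ' : (ℝ × ℝ) ≃ₜ (ℝ × ℝ)) (δ : ℕ → ℝ) (N k j : ℕ → ℕ)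
  (p : ∀ n, ZMod (N n) → ℤ × ℤ) (S : ℕ → Finset (ℤ × ℤ)), (∀ n, j n < k n) →
  K Φ δ N k p S →
  K Φ' δ N (fun n => k n - j n) (fun n i => p n (i + ((j n : ℕ) : ZMod (N n)))) S

/-- **The class contains two approximations with two starting points.** -/
theorem two_of {K : Cls} (hA : S_rotA) (hne : K.Ne) (hK : InvB K) : Two K := by
  obtain ⟨Φ, δ, N, k, p, S, h1, h2⟩ := hne
  obtain ⟨Φ', j, h3, h4, h5, h6, h7⟩ := hA Φ δ N k p S h1
  refine ⟨Φ, Φ', δ, N, k, j, p, S, h3, h1, h2, h4, hK Φ Φ' δ N k j p S h3 h2, h5, h6, ?_⟩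
  rw [h7]
  intro h8
  have h9 := Φ.injective h8
  unfold circ at h9
  have h10 := congrArg Prod.fst h9
  simp at h10

/-- A condition on the vertices near the target, as a function of the index relative to it. -/
theorem invB_of {K : Cls} (P : (ℕ → ℝ) → (ℕ → ℤ → ℤ × ℤ) → (ℕ → Finset (ℤ × ℤ)) → Prop)
    (hP : ∀ (Φ : (ℝ × ℝ) ≃ₜ (ℝ × ℝ)) (δ : ℕ → ℝ) (N k : ℕ → ℕ)
      (p : ∀ n, ZMod (N n) → ℤ × ℤ) (S : ℕ → Finset (ℤ × ℤ)),
      K Φ δ N k p S ↔
        P δ (fun (n : ℕ) (m : ℤ) => p n ((k n : ZMod (N n)) + (m : ZMod (N n)))) S) : InvB K := by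
  intro Φ Φ' δ N k j p S hj h
  rw [hP] at h ⊢
  have e : (fun (n : ℕ) (m : ℤ) => p n ((((k n - j n : ℕ) : ZMod (N n))) + (m : ZMod (N n)) +
      ((j n : ℕ) : ZMod (N n)))) =
      fun (n : ℕ) (m : ℤ) => p n ((k n : ZMod (N n)) + (m : ZMod (N n))) := by
    funext n m
    congr 1
    rw [Nat.cast_sub (hj n).le]
    ring
  rw [e]
  exact h

end Vale.Agent.P167.H397.Q
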